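import Crest.Agent.X212.Brk46.Defs
import Crest.Agent.X212.Win45.Gap
import Crest.Agent.X212.Dr9.HolD
import Crest.Agent.X212.Cut71.Cy
import Crest.Agent.X212.Sw88.C0

/-!
# Row 212, SW-BRK (helper46): good times on a cylinder
-/

set_option autoImplicit false
set_option linter.unusedSectionVars false
noncomputable section
open scoped Manifold ContDiff Topology InnerProductSpace
open MeasureTheory Set Function Filter

namespace Crest.Agent.X212.Brk46
open An Cyf70 Sw Sw.En3 Sep15.S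
open Nd18 (Jv)
open M (Mf pm)
open Win45 (Alm)

/-- the times beyond `a` on the side `b` -/
def jr (b : Bool) (a : ℝ) : Set ℝ := {t | a < pm b * t}

/-- the times between `a` and `r` on the side `b` -/
def jv (b : Bool) (a r : ℝ) : Set ℝ := {t | a < pm b * t ∧ pm b * t < r}

theorem mem_jr {b : Bool} {a t : ℝ} (h : a < pm b * t) : t ∈ jr b a := h

theorem isOpen_jr (b : Bool) (a : ℝ) : IsOpen (jr b a) := isOpen_lt continuous_const (by fun_prop)

theorem pm_pm (b : Bool) (t : ℝ) : pm b * (pm b * t) = t := by cases b <;> simp [pm]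

theorem pm_near (b : Bool) {s t d : ℝ} (h1 : s - d ≤ t) (h2 : t ≤ s + d) :
    pm b * s - d ≤ pm b * t ∧ pm b * t ≤ pm b * s + d := by
  cases b <;> simp only [pm, if_true, Bool.false_eq_true, if_false] <;> constructor <;> linarith

theorem abs_pm_sub (b : Bool) (s t : ℝ) : |s - t| = |pm b * s - pm b * t| := by
  rw [← mul_sub, Cut71.abs_pm]

theorem jv_eq (b : Bool) (a r : ℝ) : jv b a r =
    Ioo (pm b * ((a + r) / 2) - (r - a) / 2) (pm b * ((a + r) / 2) + (r - a) / 2) := by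
  ext t
  cases b <;> simp only [jv, pm, mem_Ioo, mem_ofPred_eq, if_true, Bool.false_eq_true, if_false] <;>
    constructor <;> rintro ⟨h1, h2⟩ <;> constructor <;> linarith

theorem jv_Jv (b : Bool) (a r : ℝ) : ∃ x y, jv b a r = Jv (some x) (some y) :=
  ⟨_, _, (jv_eq b a r).trans (Jv_some _ _).symm⟩

theorem vol_jv (b : Bool) (a r : ℝ) : volume (jv b a r) = ENNReal.ofReal (r - a) := by
  rw [jv_eq, Real.volume_Ioo]
  congr 1; ring

/-- the bad times -/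
def bad (m : Measure ℝ) (l ε : ℝ) : Set ℝ := {s | ENNReal.ofReal ε < m (Ioo (s - l) (s + l))}

theorem measurableSet_bad (m : Measure ℝ) [SFinite m] (l ε : ℝ) : MeasurableSet (bad m l ε) :=
  measurableSet_lt measurable_const (measurable_win m l)

/-- Chebyshev -/
theorem vol_bad (m : Measure ℝ) [SFinite m] {l ε C : ℝ} (hl : 0 ≤ l) (hε : 0 < ε)
    (h : m univ ≤ ENNReal.ofReal C) : volume (bad m l ε) ≤ ENNReal.ofReal (2 * l * |C| / ε) := by
  have k := measurableSet_str l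
  have h1 : ∫⁻ s, m (Ioo (s - l) (s + l)) = ENNReal.ofReal (2 * l) * m univ := by
    refine ((Measure.prod_apply (μ := volume) (ν := m) k).symm.trans
      (Measure.prod_apply_symm k)).trans ?_
    rw [← lintegral_const]
    refine lintegral_congr fun t => ?_
    rw [show (fun x => (x, t)) ⁻¹' {p : ℝ × ℝ | p.2 ∈ Ioo (p.1 - l) (p.1 + l)} =
      Ioo (t - l) (t + l) from by
        ext x; simp only [mem_preimage, mem_ofPred_eq, mem_Ioo]
        constructor <;> rintro ⟨a, b⟩ <;> constructor <;> linarith, Real.volume_Ioo]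
    congr 1; ring
  have h2 := mul_meas_ge_le_lintegral (μ := volume) (measurable_win m l) (ENNReal.ofReal ε)
  rw [h1] at h2
  rw [ENNReal.ofReal_div_of_pos hε, ENNReal.le_div_iff_mul_le (by simp [hε]) (by simp),
    ENNReal.ofReal_mul (by positivity), mul_comm]
  exact le_trans (mul_le_mul_right (measure_mono fun s hs => mem_ofPred.2 (le_of_lt hs)) _) (h2.trans
    (mul_le_mul_right (h.trans (ENNReal.ofReal_le_ofReal (le_abs_self C))) _))

theorem exists_good (m : Measure ℝ) [SFinite m] {l ε C D : ℝ} (hl : 0 ≤ l) (hε : 0 < ε)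
    (h : m univ ≤ ENNReal.ofReal C) {I : Set ℝ} (hI : volume I = ENNReal.ofReal D)
    (hD : 2 * l * |C| / ε < D) : ∃ t ∈ I, t ∉ bad m l ε := by
  by_contra! hc
  have := (hI ▸ measure_mono hc).trans (vol_bad m hl hε h)
  rw [ENNReal.ofReal_le_ofReal_iff (by positivity)] at this
  linarith

theorem int_le {f : ℝ → ℝ} {S : Set ℝ} {A D : ℝ} (hS : MeasurableSet S) (hA : 0 ≤ A) (hD : 0 ≤ D)
    (hv : volume S ≤ ENNReal.ofReal D) (h1 : ∀ t, f t ≤ A) (h2 : ∀ t ∉ S, f t ≤ 0) :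
    ∫ t, f t ≤ A * D := by
  by_cases hf : Integrable f
  · have i : IntegrableOn (fun _ => A) S := integrableOn_const (hv.trans_lt ENNReal.ofReal_lt_top).ne
    refine (integral_mono hf (i.integrable_indicator hS) fun t => ?_).trans ?_
    · by_cases ht : t ∈ S
      · simpa [ht] using h1 t
      · simpa [ht] using h2 t ht
    · rw [integral_indicator_const _ hS, smul_eq_mul, mul_comm]
      exact mul_le_mul_of_nonneg_left (ENNReal.toReal_le_of_le_ofReal hD hv) hA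
  · rw [integral_undef hf]; positivity

variable {κ lam ν : Type} [Fintype κ] [Fintype lam] [Fintype ν] [DecidableEq ν]
  {e : En3 κ lam ν}

/-- the energy measure over `J` -/
def eJ (c : e.ZC) (J : Set ℝ) : Measure ℝ := (em c).restrict J

instance (c : e.ZC) (J : Set ℝ) : SFinite (eJ c J) := by unfold eJ; infer_instance

theorem eJ_univ (c : e.ZC) {J : Set ℝ} (hJ : MeasurableSet J) : eJ c J univ = en c J := by
  rw [eJ, Measure.restrict_apply_univ, em_apply c hJ]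

theorem en_good {c : e.ZC} {J : Set ℝ} {l ε t : ℝ} (h : t ∉ bad (eJ c J) l ε)
    (hJ : Ioo (t - l) (t + l) ⊆ J) : en c (Ioo (t - l) (t + l)) ≤ ENNReal.ofReal ε := by
  rw [← em_apply c measurableSet_Ioo, ← Measure.restrict_eq_self _ hJ]
  exact not_lt.1 h

/-- the level moves at most linearly -/
theorem lip (hD : DlStmt κ lam ν) (he : e.OK) (C : ℝ) : ∃ A, 0 ≤ A ∧ ∀ (c : e.ZC) p p',
    e.cyl.AdmOn c (univ ×ˢ Jv p p') → Alm c (Jv p p') C → en c (Jv p p') ≤ ENNReal.ofReal C →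
    ∀ t ∈ Jv p p', ∀ t' ∈ Jv p p', |L (sl c t) - L (sl c t')| ≤ A * (1 + |t - t'|) := by
  set K := 2 * Fintype.card κ * C ^ 2 * e.D.F.μ.real univ
  have K0 : 0 ≤ K := by positivity
  refine ⟨2 * |C| + K, by positivity, fun c p p' ha hC hE t ht t' ht' => ?_⟩
  have h1 := (ordConnected_Jv p p').uIcc_subset ht ht'
  have h3 := (Dr9.abs_sub_le_lint (ordConnected_Jv p p')
    (fun s hs => (hD e he c _ (isOpen_Jv p p') ha).2.2 s hs fun y => (hC (y, s) ⟨trivial, hs⟩).1)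
    ht ht').trans (setLIntegral_mono' measurableSet_uIcc
      (g := fun s => ENNReal.ofReal K + ENNReal.ofReal 2 * ENNReal.ofReal (gn (sl c s))) fun s hs => by
        have := Win45.ip_abs he (adm_sl (isOpen_Jv p p') ha (h1 hs)) one_pos fun k y =>
          (PiLp.norm_apply_le _ (none, some k)).trans (hC (y, s) ⟨trivial, h1 hs⟩).2
        have g0 := gn_nonneg he.cyl.w (sl c s)
        rw [← ENNReal.ofReal_mul zero_le_two, ← ENNReal.ofReal_add K0 (by positivity)]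
        refine ENNReal.ofReal_le_ofReal ((abs_add_le _ _).trans ?_)
        rw [abs_neg, abs_of_nonneg g0]
        linarith)
  rw [lintegral_add_left measurable_const, lintegral_const_mul' _ _ ENNReal.ofReal_ne_top,
    setLIntegral_const, Real.volume_interval] at h3
  have h4 := h3.trans (add_le_add_right (mul_le_mul_right ((lintegral_mono_set h1).trans
    (hE.trans (ENNReal.ofReal_le_ofReal (le_abs_self C)))) _) _)
  rw [← ENNReal.ofReal_mul K0, ← ENNReal.ofReal_mul zero_le_two,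
    ← ENNReal.ofReal_add (by positivity) (by positivity),
    ENNReal.ofReal_le_ofReal_iff (by positivity), abs_sub_comm t'] at h4
  nlinarith [mul_nonneg (abs_nonneg C) (abs_nonneg (t - t'))]

theorem alm_eC (he : e.OK) (C : ℝ) : ∃ C', C ≤ C' ∧ ∀ (c : e.ZC) J, Alm c J C →
    ∀ x ∈ univ ×ˢ J, ‖e.cyl.eC c x‖ ≤ C' := by
  obtain ⟨A, A0, hA⟩ := Sw88.hl_le e
  refine ⟨C + A, by linarith, fun c J h x hx => ?_⟩
  rw [← add_sub_cancel_right (e.cyl.eC c x) (deriv e.f (hol (sl c x.2)) • e.ζ x.1)]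
  exact (norm_sub_le _ _).trans (add_le_add (h x hx).2 (hA he _ _))

theorem hol_cl (he : e.OK) : ∃ η > 0, ∀ (c : e.ZC) (v : e.YC) I t k, t ∈ I →
    e.cyl.Adm (fz (sl c t)) → e.cyl.Adm (fz v) → Cl c (fz v) I k η → |hol (sl c t) - hol v| ≤ 1 := by
  obtain ⟨Z, hZ⟩ := he.sζ.continuous.bounded_above_of_compact_support (.of_compactSpace _)
  set K := e.D.F.μ.real univ * (4 * (Fintype.card κ * |Z|))
  have K0 : 0 ≤ K := by positivity
  refine ⟨(K + 1)⁻¹, by positivity, fun c v I t k ht h1 h2 h => ?_⟩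
  have : IsFiniteMeasure e.D.F.μ := CompactSpace.isFiniteMeasure
  rw [hol, hol, ← integral_sub (Dr9.int_ζ he (sm_a h1)) (Dr9.int_ζ he (sm_a h2)), ← Real.norm_eq_abs]
  refine (norm_integral_le_of_norm_le_const (C := 4 * (Fintype.card κ * (|Z| * (K + 1)⁻¹)))
    (.of_forall fun y => ?_)).trans ?_
  · rw [← mul_sub, ← Finset.sum_sub_distrib, norm_mul, Real.norm_ofNat]
    refine mul_le_mul_of_nonneg_left (Sw88.sum_abs_le fun j => ?_) (by norm_num)
    rw [← mul_sub, abs_mul]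
    exact mul_le_mul (((PiLp.norm_apply_le (e.ζ y) _).trans (hZ y)).trans (le_abs_self Z))
      ((h [] k.zero_le (y, t) ⟨trivial, ht⟩).1 (some j)) (abs_nonneg _) (abs_nonneg _)
  · calc _ = K * (K + 1)⁻¹ := by simp only [K]; ring
      _ ≤ 1 := mul_inv_le_one_of_le₀ (by linarith) (by positivity)

theorem lb_near (hD : DlStmt κ lam ν) (he : e.OK) {c : e.ZC} {I : Set ℝ} (hI : IsOpen I)
    (ha : e.cyl.AdmOn c (univ ×ˢ I)) {s r η : ℝ} (hs : Icc (s - 1 / 2) (s + 1 / 2) ⊆ I)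
    (h : ∀ t ∈ Icc (s - 1 / 2) (s + 1 / 2), |L (sl c t) - r| ≤ η) : |lb c s - r| ≤ η :=
  have m : ∀ p ∈ Icc (0 : ℝ) 1, s + p - 1 / 2 ∈ Icc (s - 1 / 2) (s + 1 / 2) :=
    fun _ hp => ⟨by linarith [hp.1], by linarith [hp.2]⟩
  Win45.av_le ((hD e he c I hI ha).1.continuousOn.comp (by fun_prop) fun p hp => hs (m p hp))
    fun p hp => h _ (m p hp)

theorem flat_unif {α : Type} [Finite α] {ψ : ℝ → ℝ} {l : α → ℝ}
    (h : ∀ o, ∀ᶠ r in 𝓝 (l o), ψ r = ψ (l o)) : ∃ γ > 0, ∀ o r, |r - l o| ≤ γ → ψ r = ψ (l o) := by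
  have : ∀ᶠ γ in 𝓝[>] (0 : ℝ), ∀ o r, |r - l o| ≤ γ → ψ r = ψ (l o) := eventually_all.2 fun o => by
    obtain ⟨δ, h0, hδ⟩ := Metric.eventually_nhds_iff.1 (h o)
    exact mem_nhdsWithin_of_mem_nhds ((gt_mem_nhds h0).mono fun γ hγ r hr => hδ (hr.trans_lt hγ))
  exact (this.and self_mem_nhdsWithin).exists.imp fun _ h => ⟨h.2, h.1⟩

/-- the conclusion of `GwStmt` -/
structure Gc (g : e.Gen) (V : Set e.YC) (c : e.ZC) (τ : ℝ) (n : ℕ) (B γ : ℝ) (v : e.YC) : Prop where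
  V : v ∈ V
  hol : |hol v| ≤ B
  o : ∃ o, L v = L (g.pt o)
  lv : ∀ t ∈ win τ, |L (sl c t) - L v| ≤ γ
  χ : ∃ u, Gau e.Z.I u ∧ (∀ x, x.2 ∉ Icc (τ - n - 1) (τ + n + 1) → u x = 1) ∧
    Cl (e.cyl.act u c) (fz v) (Ioo (τ - n) (τ + n)) n (1 / (n + 1))

theorem gw (hG : GwStmt κ lam ν) {g : e.Gen} {V : Set e.YC} (hg : g.OK) (hV : Rs V) (C : ℝ)
    {η₀ γ : ℝ} (h0 : 0 < η₀) (hγ : 0 < γ) : ∃ ε > 0, ∀ (B : ℝ) (n : ℕ), ∃ l > 0,
    ∀ (W : Type) (T : W → Option e.YT) q c τ J, Sml T q 6 1 → Ioo (τ - l) (τ + l) ⊆ J →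
    e.cyl.AdmOn c (univ ×ˢ Ioo (τ - l - 1) (τ + l + 1)) →
    e.cyl.EqOn (pt T q) c (univ ×ˢ Ioo (τ - l) (τ + l)) → (∀ x, ‖c.Φ x‖ ≤ C) →
    τ ∉ bad (eJ c J) l ε → η₀ ≤ nm (sl c τ) → |hol (sl c τ)| ≤ B →
    ∃ v, Gc g V c τ n (B + 1) γ v := by
  obtain ⟨ε, e0, h⟩ := hG e g V hg hV (max C 1) η₀ γ h0 hγ
  refine ⟨ε, e0, fun B n => (h B n).imp fun l hl => ⟨hl.1, fun W T q c τ J h1 h2 h3 h4 h5 h6 h7 h8 => ?_⟩⟩
  obtain ⟨v, a⟩ := hl.2 W T q c τ (sml_mono h1 le_rfl (le_max_right _ _))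
    ⟨Jv_some (τ - l - 1) (τ + l + 1) ▸ h3, Jv_some (τ - l) (τ + l) ▸ h4⟩
    (fun x _ => (h5 x).trans (le_max_left _ _)) (en_good h6 h2) h7 h8
  exact ⟨v, a.1, a.2.1, a.2.2.1, a.2.2.2.1, a.2.2.2.2⟩

/-- an end in the coordinates of the cylinder -/
structure Hy {W : Type} (T : W → Option e.YT) (q : W →₀ ℝ) (c : e.ZC) (β : e.YC) (b : Bool)
    (C C₁ η₀ η a a₁ r : ℝ) : Prop where
  ar : a + 1 ≤ r
  adm : e.cyl.AdmOn c (univ ×ˢ jr b (a - 2))
  alm : Alm c (jv b (a - 1) r) C₁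
  eq : e.cyl.EqOn (pt T q) c (univ ×ˢ jv b a₁ r)
  sml : Sml T q 6 1
  sup : ∀ x, ‖c.Φ x‖ ≤ C
  en : en c (jr b (a - 1)) ≤ ENNReal.ofReal C
  low : ∀ t ∈ jr b a, η₀ ≤ nm (sl c t)
  tl : Cl c (fz β) (jr b (r - 1)) 1 η

/-- a large moment gives a good time -/
theorem core (hD : DlStmt κ lam ν) (hR : DriftStmt κ lam ν) (hG : GwStmt κ lam ν) {g : e.Gen}
    {V : Set e.YC} (hg : g.OK) (hV : Rs V) {β : e.YC} (hβ : Gd β) (C C₁ : ℝ) {η₀ γ : ℝ}
    (h0 : 0 < η₀) (hγ : 0 < γ) : ∃ C', ∃ η > 0, ∀ (n : ℕ) (N a a₁ : ℝ), 0 ≤ N → a ≤ a₁ → ∃ m,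
    ∀ b (W : Type) (T : W → Option e.YT) q c r (f : ℝ → ℝ), Hy T q c β b C C₁ η₀ η a a₁ r →
      (∀ t, f t ∈ Icc (0 : ℝ) 1) → (∀ t ∉ jr b a, f t = 0) →
      m < ∫ t, f t * (pm b * (e.ψ (lb c t) - e.ψ (L β))) →
      ∃ τ ∈ jv b (a₁ + N) (r - N), ∃ v, Gc g V c τ n C' γ v ∧ 0 < pm b * (L v - L β) := by
  have he := hg.ok
  obtain ⟨γ₁, g1, f1⟩ := flat_unif hg.flat
  obtain ⟨γ₂, g2, f2⟩ := flat_unif (l := fun _ : Unit => L β) fun _ => hβ.flat
  obtain ⟨ε, e0, hw⟩ := gw hG hg hV C h0 (lt_min hγ g1)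
  obtain ⟨η₁, i1, l1⟩ := Cut71.lev he hβ.crit g2
  obtain ⟨η₂, i2, l2⟩ := hol_cl he
  obtain ⟨C₂, c2, hC⟩ := alm_eC he (max C C₁)
  obtain ⟨B, hB⟩ := hR e V he hg.w hV C₂ η₀ h0
  obtain ⟨A, A0, hA⟩ := lip hD he (max C C₁)
  obtain ⟨R, hR'⟩ := (finite_range fun o => |L (g.pt o)|).bddAbove
  refine ⟨|hol β| + 1 + B + 1, min η₁ η₂, lt_min i1 i2, fun n N a a₁ N0 a1 => ?_⟩
  obtain ⟨l, l0, hl⟩ := hw (|hol β| + 1 + B) n
  obtain ⟨D, D0, hD'⟩ : ∃ D, 0 ≤ D ∧ 2 * l * |C| / ε = D := ⟨_, by positivity, rfl⟩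
  obtain ⟨M, M0, hM⟩ : ∃ M, 0 ≤ M ∧ M = a₁ - a + l + N + 1 := ⟨_, by linarith, rfl⟩
  obtain ⟨A₁, A1, hA₁⟩ : ∃ A₁, 0 ≤ A₁ ∧ A₁ = |R| + γ₁ + |L β| + γ₂ + A * (2 * M + D + 3) :=
    ⟨_, by positivity, rfl⟩
  obtain ⟨A₂, hA₂⟩ := isCompact_Icc.exists_bound_of_continuousOn
    (he.sψ.continuous.continuousOn (s := Icc (-A₁) A₁))
  refine ⟨(|A₂| + |e.ψ (L β)|) * (D + 2 * M + 2), fun b W T q c r f H f0 f3 hm => ?_⟩
  by_contra! hc
  have mC := ENNReal.ofReal_le_ofReal (le_max_left C C₁)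
  have al : Alm c (jv b (a - 1) r) (max C C₁) := fun x hx =>
    ⟨(H.alm x hx).1, (H.alm x hx).2.trans (le_max_right _ _)⟩
  have ad : ∀ {I : Set ℝ}, (∀ t ∈ I, a - 2 < pm b * t) → e.cyl.AdmOn c (univ ×ˢ I) := fun h =>
    admOn_mono H.adm (prod_mono_right h)
  have ar := H.ar
  have t1 : ∀ t ∈ jr b (r - 1), |L (sl c t) - L β| ≤ γ₂ := fun t ht =>
    (l1 c _ (isOpen_jr b _) (fun x hx => .of_on H.adm (Cut71.opn (isOpen_jr b _))
      ⟨trivial, mem_jr <| by linarith [mem_ofPred.1 hx.2]⟩)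
      (Cut71.cl_mono H.tl Subset.rfl le_rfl (min_le_left _ _)) t ht).1
  have r1 : pm b * (r - 1 / 2) ∈ jr b (r - 1) := mem_jr <| by rw [pm_pm]; linarith
  have r2 : ∀ {x}, x ≤ a → pm b * (r - 1 / 2) ∈ jv b x r := fun h =>
    ⟨by rw [pm_pm]; linarith, by rw [pm_pm]; linarith⟩
  have gd : ∀ τ ∈ jv b (a₁ + N + l) (r - N - l), τ ∉ bad (eJ c (jr b (a - 1))) l ε →
      ∃ v, Gc g V c τ n (|hol β| + 1 + B + 1) (min γ γ₁) v := fun τ hτ hb => by
    have p1 := hτ.1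
    have p2 := hτ.2
    refine hl W T q c τ _ H.sml (fun t ht => mem_jr <| by
        linarith [(pm_near b ht.1.le ht.2.le).1])
      (ad fun t ht => by linarith [(pm_near b (s := τ) (d := l + 1) (t := t) (by linarith [ht.1])
        (by linarith [ht.2])).1])
      (fun x hx => H.eq x ⟨trivial, ?_⟩) H.sup hb (H.low τ (mem_jr <| by linarith)) ?_
    · have := pm_near b hx.2.1.le hx.2.2.le
      exact ⟨by linarith [this.1], by linarith [this.2]⟩
    · obtain ⟨x, y, hJ⟩ := jv_Jv b a r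
      have k := hB c (some x) (some y) (hJ ▸ ad fun t ht => by linarith [ht.1])
        (hJ ▸ fun z hz => hC c _ al z ⟨trivial, by linarith [hz.2.1], hz.2.2⟩)
        (fun z _ => (H.sup z).trans ((le_max_left _ _).trans c2))
        (hJ ▸ (en_mono c fun t ht => mem_jr <| by linarith [ht.1]).trans (H.en.trans
          (mC.trans (ENNReal.ofReal_le_ofReal c2))))
        (hJ ▸ fun t ht => H.low t ht.1) τ (hJ ▸ ⟨by linarith, by linarith⟩) _ (hJ ▸ r2 le_rfl)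
      have k' := l2 c β _ _ 1 r1 (adm_sl (isOpen_jr b _) H.adm (mem_jr <| by
        rw [pm_pm]; linarith)) hβ.crit.1 (Cut71.cl_mono H.tl Subset.rfl le_rfl (min_le_right _ _))
      rw [abs_le] at k k' ⊢
      constructor <;> linarith [k.1, k.2, k'.1, k'.2, le_abs_self (hol β), neg_abs_le (hol β)]
  have mu : eJ c (jr b (a - 1)) univ ≤ ENNReal.ofReal C :=
    eJ_univ c (isOpen_jr b _).measurableSet ▸ H.en
  have bd : ∀ t ∈ jr b (a - 1), |L (sl c t)| ≤ A₁ := fun t ht => by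
    have p0 : a - 1 < pm b * t := ht
    have q1 := abs_nonneg R
    have q2 := abs_nonneg (L β)
    have q3 : 0 ≤ A * (2 * M + D + 3) := by positivity
    rcases le_or_gt r (pm b * t) with k | k
    · have := abs_sub_abs_le_abs_sub (L (sl c t)) (L β)
      linarith [t1 t (mem_jr <| by linarith)]
    obtain ⟨t', p1, p2, p3⟩ : ∃ t' ∈ jv b (a - 1) r, |t - t'| ≤ 2 * M + D + 2 ∧
        |L (sl c t')| ≤ |R| + γ₁ + |L β| + γ₂ := by
      rcases le_or_gt (pm b * t + M + (D + 1)) (r - N - l) with k' | k'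
      · obtain ⟨t', p1, p2⟩ := exists_good _ l0.le e0 mu
          (vol_jv b (pm b * t + M) (pm b * t + M + (D + 1))) (by linarith)
        obtain ⟨v, hv⟩ := gd t' ⟨by linarith [p1.1], by linarith [p1.2]⟩ p2
        obtain ⟨o, ho⟩ := hv.o
        refine ⟨t', ⟨by linarith [p1.1], by linarith [p1.2]⟩, ?_, ?_⟩
        · rw [abs_pm_sub b, abs_le]
          constructor <;> linarith [p1.1, p1.2]
        · have := abs_sub_abs_le_abs_sub (L (sl c t')) (L v)
          have h2 := hv.lv t' ⟨by linarith, by linarith⟩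
          have h3 : |L (g.pt o)| ≤ R := hR' ⟨o, rfl⟩
          rw [← ho] at h3
          linarith [min_le_right γ γ₁, le_abs_self R]
      · refine ⟨_, r2 (by linarith), ?_, ?_⟩
        · rw [abs_pm_sub b, pm_pm, abs_le]
          constructor <;> linarith
        · have := abs_sub_abs_le_abs_sub (L (sl c (pm b * (r - 1 / 2)))) (L β)
          linarith [t1 _ r1]
    obtain ⟨x, y, hJ⟩ := jv_Jv b (a - 1) r
    have k2 := hA c (some x) (some y) (hJ ▸ ad fun t ht => by linarith [ht.1]) (hJ ▸ al)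
      (hJ ▸ (en_mono c fun t ht => ht.1).trans (H.en.trans mC)) t (hJ ▸ ⟨p0, k⟩) t' (hJ ▸ p1)
    have := abs_sub_abs_le_abs_sub (L (sl c t)) (L (sl c t'))
    have := mul_le_mul_of_nonneg_left (show 1 + |t - t'| ≤ 2 * M + D + 3 by linarith) A0
    linarith
  have nr : ∀ {t x y z : ℝ}, a < pm b * t → (∀ s ∈ Icc (t - 1 / 2) (t + 1 / 2),
      pm b * t - 1 / 2 ≤ pm b * s → |L (sl c s) - y| ≤ z) → |lb c t - y| ≤ z := fun {t x y z} h1 h2 =>
    lb_near hD he (isOpen_jr b _) H.adm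
      (fun s hs => mem_jr <| by linarith [(pm_near b hs.1 hs.2).1])
      fun s hs => h2 s hs (pm_near b hs.1 hs.2).1
  refine hm.not_ge (int_le (S := bad (eJ c (jr b (a - 1))) l ε ∪
    (jv b (a - 1) (a + M) ∪ jv b (r - M) (r + 1))) ((measurableSet_bad _ _ _).union
      ((jv_eq .. ▸ measurableSet_Ioo).union (jv_eq .. ▸ measurableSet_Ioo))) (by positivity)
      (by positivity) ?_ (fun t => ?_) fun t ht => ?_)
  · refine (measure_union_le _ _).trans ((add_le_add (vol_bad _ l0.le e0 mu)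
      (measure_union_le _ _)).trans_eq ?_)
    rw [vol_jv, vol_jv, hD', ← ENNReal.ofReal_add (by linarith) (by linarith),
      ← ENNReal.ofReal_add D0 (by linarith)]
    congr 1; ring
  · by_cases ht : t ∈ jr b a
    · have k := nr (x := 0) (y := 0) ht fun s _ hs => by
        rw [sub_zero]; exact bd s (mem_jr <| by linarith [mem_ofPred.1 ht])
      rw [sub_zero] at k
      refine (le_abs_self _).trans ?_
      rw [abs_mul, Cut71.abs_pm, abs_of_nonneg (f0 t).1]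
      exact (mul_le_of_le_one_left (abs_nonneg _) (f0 t).2).trans ((abs_sub _ _).trans
        (add_le_add_left ((hA₂ _ (abs_le.1 k)).trans (le_abs_self _)) _))
    · rw [f3 t ht, zero_mul]; positivity
  · by_cases h1 : t ∈ jr b a
    swap
    · rw [f3 t h1, zero_mul]
    have p0 : a < pm b * t := h1
    simp only [mem_union, not_or, jv, mem_ofPred_eq, not_and, not_lt] at ht
    have p1 := ht.2.1 (by linarith)
    refine mul_nonpos_of_nonneg_of_nonpos (f0 t).1 ?_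
    rcases le_or_gt (pm b * t) (r - M) with k | k
    · obtain ⟨v, hv⟩ := gd t ⟨by linarith, by linarith⟩ ht.1
      obtain ⟨o, ho⟩ := hv.o
      have k1 := f1 o _ (ho ▸ (nr (x := 0) p0 fun s hs _ =>
        hv.lv s ⟨by linarith [hs.1], by linarith [hs.2]⟩).trans (min_le_right _ _))
      have k2 := hc t ⟨by linarith, by linarith⟩ v ⟨hv.V, hv.hol, hv.o,
        fun s hs => (hv.lv s hs).trans (min_le_left _ _), hv.χ⟩
      rw [k1, ← ho]
      cases b <;> simp only [pm, if_true, Bool.false_eq_true, if_false, neg_mul, one_mul, neg_sub,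
        sub_nonpos] at k2 ⊢ <;> exact he.mψ k2
    · have p2 := ht.2.2 k
      rw [f2 () _ (nr (x := 0) p0 fun s _ hs => t1 s (mem_jr <| by linarith)), sub_self, mul_zero]

/-- a long finite neck has a good time -/
theorem coreN (hR : DriftStmt κ lam ν) (hG : GwStmt κ lam ν) {g : e.Gen} {V : Set e.YC} (hg : g.OK)
    (hV : Rs V) (C C₁ B : ℝ) {η₀ : ℝ} (h0 : 0 < η₀) : ∃ C', ∀ (n : ℕ) (a : ℝ), 3 ≤ a → ∃ m,
    ∀ (W : Type) (T : W → Option e.YT) q c x z, m ≤ z - x → e.cyl.AdmOn c (univ ×ˢ Ioo x z) →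
      Alm c (Ioo (x + 2) (z - 2)) C₁ → e.cyl.EqOn (pt T q) c (univ ×ˢ Ioo (x + a) (z - a)) →
      Sml T q 6 1 → (∀ x, ‖c.Φ x‖ ≤ C) → en c (Ioo (x + 2) (z - 2)) ≤ ENNReal.ofReal C →
      (∀ t ∈ Ioo (x + 3) (z - 3), η₀ ≤ nm (sl c t)) →
      (∃ t ∈ Ioo (x + 2) (z - 2), t ∉ Ioo (x + 3) (z - 3) ∧ |hol (sl c t)| ≤ B) →
      ∃ τ : ℝ, Icc (τ - n - 1) (τ + n + 1) ⊆ Ioo x z ∧ ∃ v, Gc g V c τ n C' 1 v := by
  have he := hg.ok
  obtain ⟨ε, e0, hw⟩ := gw hG hg hV C h0 one_pos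
  obtain ⟨C₂, c2, hC⟩ := alm_eC he (max C C₁)
  obtain ⟨R, hR⟩ := hR e V he hg.w hV C₂ η₀ h0
  obtain ⟨A, hA⟩ := Dr9.holD he C₂
  refine ⟨B + |A| * 3 + R + 1, fun n a a3 => ?_⟩
  obtain ⟨l, l0, hl⟩ := hw (B + |A| * 3 + R) n
  obtain ⟨D, D0, hD⟩ : ∃ D, 0 ≤ D ∧ 2 * l * |C| / ε = D := ⟨_, by positivity, rfl⟩
  have n0 : (0 : ℝ) ≤ n := n.cast_nonneg
  refine ⟨2 * (a + l + n + 1) + D + 1, fun W T q c x z hm h1 h2 h3 h4 h5 h6 h7 ⟨t, t1, t2, t3⟩ => ?_⟩
  obtain ⟨τ, p1, p2⟩ := exists_good _ l0.le e0 (eJ_univ c measurableSet_Ioo ▸ h6)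
    (Real.volume_Ioo (a := x + a + l + n + 1) (b := z - a - l - n - 1)) (by linarith)
  have q1 := p1.1
  have q2 := p1.2
  have ad : ∀ {x' z'}, x ≤ x' → z' ≤ z → e.cyl.AdmOn c (univ ×ˢ Ioo x' z') := fun h h' =>
    admOn_mono h1 (prod_mono_right (Ioo_subset_Ioo h h'))
  have ec := hC c _ fun x hx => ⟨(h2 x hx).1, (h2 x hx).2.trans (le_max_right _ _)⟩
  have en2 := h6.trans (ENNReal.ofReal_le_ofReal ((le_max_left C C₁).trans c2))
  have s32 : Ioo (x + 3) (z - 3) ⊆ Ioo (x + 2) (z - 2) := Ioo_subset_Ioo (by linarith) (by linarith)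
  have τ3 : τ ∈ Ioo (x + 3) (z - 3) := ⟨by linarith, by linarith⟩
  refine ⟨τ, fun s hs => ⟨by linarith [hs.1], by linarith [hs.2]⟩, hl W T q c τ _ h4
    (Ioo_subset_Ioo (by linarith) (by linarith)) (ad (by linarith) (by linarith))
    (fun y hy => h3 y ⟨trivial, by linarith [hy.2.1], by linarith [hy.2.2]⟩) h5 p2 (h7 τ τ3) ?_⟩
  obtain ⟨t', k1, k2⟩ : ∃ t' ∈ Ioo (x + 3) (z - 3), |t - t'| ≤ 2 := by
    rcases not_and_or.1 t2 with k | k
    · exact ⟨x + 4, ⟨by linarith, by linarith⟩, abs_le.2 ⟨by linarith [t1.1], by linarith⟩⟩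
    · exact ⟨z - 4, ⟨by linarith, by linarith⟩, abs_le.2 ⟨by linarith, by linarith [t1.2]⟩⟩
  simp only [← Jv_some] at *
  have k3 := hA c _ _ (ad (by linarith) (by linarith)) ec en2 t t1 t' (s32 k1)
  have k4 := hR c _ _ (ad (by linarith) (by linarith)) (fun y hy => ec y ⟨trivial, s32 hy.2⟩)
    (fun y _ => (h5 y).trans ((le_max_left _ _).trans c2)) ((en_mono c s32).trans en2) h7 τ τ3 t' k1
  have k5 := k3.trans (mul_le_mul (le_abs_self A) (show 1 + |t - t'| ≤ 3 by linarith)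
    (by positivity) (abs_nonneg A))
  rw [abs_le] at *
  constructor <;> linarith [k4.1, k4.2, k5.1, k5.2, t3.1, t3.2]

end Crest.Agent.X212.Brk46
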