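import Crest.Agent.X212.Sw.Lv

/-!
# Row 212, SW-BRK (helper46): leaves for `Brk.fre`, `Brk.nec`
-/

set_option autoImplicit false
set_option linter.unusedSectionVars false
noncomputable section
open scoped Manifold ContDiff Topology InnerProductSpace
open MeasureTheory Set Function Filter

namespace Crest.Agent.X212.Brk46
open An Cyf70 Sw Sw.En3
open Nd18 (Jv)
open M (Mf pm)

variable (κ lam ν : Type) [Fintype κ] [Fintype lam] [Fintype ν] [DecidableEq ν]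

/-- BRK-GW: one null-homotopic gauge on a long window of small energy -/
def GwStmt : Prop := ∀ (e : En3 κ lam ν) (g : e.Gen) (V : Set e.YC), g.OK → Rs V →
  ∀ C η₀ γ : ℝ, 0 < η₀ → 0 < γ → ∃ ε > 0, ∀ (B : ℝ) (n : ℕ), ∃ l > 0,
    ∀ (W : Type) (T : W → Option e.YT) q c τ, Sml T q 6 C →
    Loc T q c (some (τ - l)) (some (τ + l)) → Sup c (Ioo (τ - l) (τ + l)) C →
    en c (Ioo (τ - l) (τ + l)) ≤ ENNReal.ofReal ε → η₀ ≤ nm (sl c τ) → |hol (sl c τ)| ≤ B →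
    ∃ v ∈ V, |hol v| ≤ B + 1 ∧ (∃ o, L v = L (g.pt o)) ∧ (∀ t ∈ win τ, |L (sl c t) - L v| ≤ γ) ∧
      ∃ u, Gau e.Z.I u ∧ (∀ x, x.2 ∉ Icc (τ - n - 1) (τ + n + 1) → u x = 1) ∧
        Cl (e.cyl.act u c) (fz v) (Ioo (τ - n) (τ + n)) n (1 / (n + 1))

variable {κ lam ν} in
/-- BRK-EXT: a gauge transformation supported in a window of a neck -/
def ExtAt (d : Dt κ lam ν) [Fintype d.𝓔] (Sl : Type) [Fintype Sl] (X : Mf 4) (nc nr : ℕ) (T : Type)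
    [NormedAddCommGroup T] [NormedSpace ℝ T] [FiniteDimensional ℝ T] : Prop :=
  ∀ (s : StS d Sl X) (σ : Cel s nc nr T), σ.OK → ∀ (y : σ.Pnt) j, ∀ K ∈ (σ.P y.1.1).nk j,
    ∀ u (a b : ℝ), Gau (d.e j.1).Z.I u → Icc a b ⊆ K.J →
    (∀ x, x.2 ∉ Icc a b → u x = 1) → ∃ c', (σ.P y.1.1).As σ.β c' ∧
      (σ.P y.1.1).Eqv y.1.2 c' ∧ σ.R y.1.1 c' = σ.R y.1.1 y.1.2 ∧
      (∀ v I k η, IsOpen I → I ⊆ K.J → Cl ((d.e j.1).cyl.act u (K.pb y.1.2)) v I k η →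
        Cl (K.pb c') v I k η) ∧
      (∀ q O, (σ.P y.1.1).bg.EqOn ((σ.P y.1.1).pt q) y.1.2 O →
        (σ.P y.1.1).bg.EqOn ((σ.P y.1.1).pt q) c' O) ∧
      (∀ q, (∀ i, (σ.P y.1.1).bg.l i y.1.2 = ((σ.P y.1.1).pt q).S y.1.2 i) →
        ∀ i, (σ.P y.1.1).bg.l i c' = ((σ.P y.1.1).pt q).S c' i) ∧
      ∀ j' b' r, ∀ K' ∈ s.nk j', (j' = j → Disjoint (Icc a b) (K'.far b' r)) → ∀ v w,
        K'.tl b' v c' r w = K'.tl b' v y.1.2 r w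

/-- BRK-EXT -/
def ExtStmt : Prop := ∀ (d : Dt κ lam ν) [Fintype d.𝓔] (Sl : Type) [Fintype Sl] (X : Mf 4) (nc nr : ℕ)
  (T : Type) [NormedAddCommGroup T] [NormedSpace ℝ T] [FiniteDimensional ℝ T], ExtAt d Sl X nc nr T

end Crest.Agent.X212.Brk46
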