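import Crest.Agent.X212.Brk46.Defs
import Crest.Agent.X212.Pb50.Pt
import Crest.Agent.X212.Sep15.Pat

/-!
# Row 212, SW-BRK (helper46): gauge transformations supported in a window of a neck
-/

set_option autoImplicit false
set_option linter.unusedSectionVars false
noncomputable section
open scoped Manifold ContDiff Topology InnerProductSpace
open MeasureTheory Set Function Filter

namespace Crest.Agent.X212.Brk46
open An Cyf70 Sw Sw.En3 Sep15.S
open M (Mf pm)
open Pb50 (ng_p ng_q ng_ψ ng_inf ng_far)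

variable {κ lam ν : Type} [Fintype κ] [Fintype lam] [Fintype ν] [DecidableEq ν]

theorem ag_pb {X : Mf 4} {nc : ℕ} {e : En3 κ lam ν} {B : Bg X.I X.M κ lam ν nc} (K : Nk e B)
    (u : X.M → ℂ) (c : Cfg X.M κ ν) {I : Set ℝ} (h : I ⊆ K.J) :
    Ag (K.pb (B.act u c)) (e.cyl.act (fun y => u (K.ψ y)) (K.pb c)) I := fun _ hx =>
  Pb50.pb_act K (K.mem_src.2 (h hx.2)) u c

theorem ext : ExtStmt κ lam ν := by
  classical
  intro d _ Sl _ X nc nr T _ _ _ s σ h y j K hK u a b hu hJ h1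
  have hQ := y.2.1
  have hP := h.ok _ hQ
  have hA := y.2.2
  let U : X.M → ℂ := fun x => if K.tm x ∈ Icc a b then u (K.ψ.symm x) else 1
  have u1 : ∀ x ∈ K.ψ.target, U x = u (K.ψ.symm x) := fun x hx => by
    by_cases k : K.tm x ∈ Icc a b
    · exact if_pos k
    · exact (if_neg k).trans (h1 _ (K.snd_symm hx ▸ k)).symm
  have u2 : ∀ x ∈ K.ψ.source, U (K.ψ x) = u x := fun x hx => by
    rw [u1 _ (K.ψ.map_source hx), K.ψ.left_inv hx]
  have u3 : ∀ j', ∀ K' ∈ (σ.P y.1.1).nk j', ∀ x ∈ K'.ψ.source, (j' = j → x.2 ∉ Icc a b) →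
      U (K'.ψ x) = 1 := fun j' K' k x hx e => if_neg fun m => by
    by_cases hj : j' = j
    · subst hj
      obtain rfl := Option.mem_unique hK k
      exact e rfl (K.tm_ψ x hx ▸ m)
    · exact disjoint_left.1 (hP.dj hj K' k K hK) (K'.ψ.map_source hx) (K.tgt ▸ hJ m)
  have g : Gau X.I U := ⟨fun x => by
    by_cases k : K.tm x ∈ Icc a b
    · have m : K.ψ.target ∈ 𝓝 x := K.ψ.open_target.mem_nhds (K.tgt ▸ hJ k)
      exact ((hu.1 _).comp x (K.iso.sm'.contMDiffAt m)).congr_of_eventuallyEq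
        (mem_of_superset m u1)
    · exact (contMDiffAt_const (c := (1 : ℂ))).congr_of_eventuallyEq (mem_of_superset
        ((isClosed_Icc.preimage K.cont).isOpen_compl.mem_nhds k) fun z hz => if_neg hz),
    fun x => by
      by_cases k : K.tm x ∈ Icc a b
      · exact (congrArg _ (if_pos k)).trans (hu.2 _)
      · exact (congrArg _ (if_neg k)).trans norm_one⟩
  have al : (σ.P y.1.1).Al U := ⟨g, fun j' b' K' k _ => ⟨|a| + |b|,
    Pb50.hh_congr (Pb50.Hi.zero.hh _) (Pb50.isOpen_far K' _) fun x hx =>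
      (sub_eq_zero.2 (u3 j' K' k x (K'.mem_src.2 hx.2.1) fun _ m => by
        have h2 := (mem_ofPred.1 hx.2.2).trans_le (le_abs_self _)
        rw [show |pm b' * x.2| = |x.2| by cases b' <;> simp [pm]] at h2
        rcases lt_abs.1 h2 with k | k
        · linarith [m.2, le_abs_self b, abs_nonneg a]
        · linarith [m.1, neg_abs_le a, abs_nonneg b])).symm⟩⟩
  have cr : (σ.P y.1.1).Cr σ.β := fun i b' k =>
    (h.gd i b' ((Pb50.inf_iff h.toOK hQ i b').1 k)).crit
  have as := Pb50.as_act hP.toOK cr hA al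
  obtain ⟨-, p1, p2, -, p3, p4, p5, -, -, p6⟩ := (Pb50.pb κ lam ν).act d X nc _ _ _ hP _ U hA.1 g
  refine ⟨_, as, ⟨U, al, rfl⟩, funext fun k => (h.R k).2 y ⟨(y.1.1, (σ.P y.1.1).bg.act U y.1.2), hQ, as⟩
      rfl ⟨U, al, rfl⟩,
    fun v I k η hI hs c => ((ag_pb K U _ hs).trans
      (ag_act hI (fun x hx => u2 x (K.mem_src.2 (hs hx.2))) _)).cl hI c,
    fun q O e x hx => ⟨(p1 x).trans ((congrArg _ (e x hx).1).trans (p2 x).symm), ?_⟩,
    fun q e i => ?_, fun j' b' r K' k e v w => ?_⟩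
  · simp only [Pc.pt, p3, p4, p5]
    exact (e x hx).2
  · obtain ⟨z, -, hz⟩ := p6 i
    rw [Bg.l, hz _ (hP.bg.ct i).η, ← Bg.l, e i]
    simp only [Pc.pt, Finsupp.sum, Finset.mul_sum, hz _ (hP.η _ i), mul_smul_comm]
  · obtain ⟨K'', k1, k2⟩ := h.en _ hQ j' K' k
    have o : IsOpen (K''.far b' r) := (isOpen_Jv _ _).inter (isOpen_ir b' r)
    have := ((ag_pb K'' U y.1.2 (I := K''.far b' r) fun _ k => k.1).trans (ag_one o (fun x hx =>
      u3 j' K'' k1 x (K''.mem_src.2 hx.2.1) fun e' m =>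
        disjoint_left.1 (e e') m (ng_far k2 r ▸ hx.2)) _)).tz (v := v) o w
    simpa only [Nk.tl, tz, Nk.pb, ng_ψ k2, ng_far k2] using this

end Crest.Agent.X212.Brk46
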