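import Crest.Agent.X212.Brk46.Ky

/-!
# Row 212, SW-BRK (helper46): the fields `fre` and `nec` of `Sw.Brk` from the leaves
-/

set_option autoImplicit false
set_option linter.unusedSectionVars false
noncomputable section
open scoped Manifold ContDiff Topology InnerProductSpace
open MeasureTheory Set Function Filter

namespace Crest.Agent.X212.Brk46
open An Cyf70 Sw Sw.En3 Sep15.S
open Nd18 (Jv)
open M (Mf pm)
open Win45 (Alm)
open Pb50 (ng_p ng_q ng_ψ ng_inf ng_far)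

variable {κ lam ν : Type} [Fintype κ] [Fintype lam] [Fintype ν] [DecidableEq ν]
  {d : Dt κ lam ν} [Fintype d.𝓔] {Sl : Type} [Fintype Sl] {X : Mf 4} {nc nr : ℕ}
  {T : Type} [NormedAddCommGroup T] [NormedSpace ℝ T] [FiniteDimensional ℝ T]
  {s : StS d Sl X} {σ : Cel s nc nr T} {C η₀ η : ℝ}

theorem pm_ne {b b' : Bool} (h : b' ≠ b) (t : ℝ) : pm b' * t = -(pm b * t) := by
  cases b <;> cases b' <;> simp_all [pm]

theorem ng_aa {e : En3 κ lam ν} {nc' : ℕ} {B : Bg X.I X.M κ lam ν nc} {B' : Bg X.I X.M κ lam ν nc'}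
    {K : Nk e B} {K' : Nk e B'} (h : K'.ng = K.ng) (b : Bool) : aa K' b = aa K b := by
  simp only [aa, ng_p h, ng_q h]

/-- a large moment gives good times on an end -/
theorem endK (hD : DlStmt κ lam ν) (hR : DriftStmt κ lam ν) (hG : GwStmt κ lam ν) (Γ : Ctx d)
    (h : σ.OK) (C : ℝ) (h0 : 0 < η₀) (h1 : η ≤ 1) {γ : ℝ} (hγ : 0 < γ) {j : d.𝓔 × Sl} {b : Bool}
    (hb : s.Inf j b) : ∃ C', ∀ (ι : Type) (l : Filter ι) q y ρ q₀, σ.PS l q y ρ → St.Cv l q q₀ →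
      (∀ᶠ i in l, σ.Sm η (q i) ∧ σ.Bnd C η₀ (y i)) →
      Tendsto (fun i => s.mo σ.β j b (y i).1.2) l atTop → ∀ (n : ℕ) (N : ℝ), ∀ᶠ i in l,
      ∃ K ∈ (σ.P (y i).1.1).nk j, K.Inf b ∧ ∃ τ v,
        Gc (Γ.g j.1) (Γ.V j.1) (K.pb (y i).1.2) τ n C' γ v ∧ 0 < pm b * (L v - L (σ.β j b)) ∧
        N ≤ pm b * τ ∧ aa K b + N ≤ pm b * τ ∧ ∀ r ∈ ρ i j b, pm b * τ + N ≤ r := by
  have hβ := h.gd j b hb
  obtain ⟨K₀, k0, i0⟩ := hb
  obtain ⟨C', ηt, t0, hc⟩ := core hD hR hG (Γ.ok j.1) (Γ.rs j.1) hβ C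
    (1 + Fintype.card (d.𝓔 × Sl)) h0 hγ
  obtain ⟨η', t1, ht⟩ := tail (Γ.ok j.1).ok t0
  refine ⟨C', fun ι l q y ρ q₀ hP hq hB hm n N => ?_⟩
  choose r₀ hr₀ using h.cfo
  obtain ⟨R, hR⟩ := supp_cv hq r₀
  obtain ⟨m, hm'⟩ := hc n (|N| + |aa K₀ b|) (aa K₀ b) (max (aa K₀ b) R) (by positivity)
    (le_max_left _ _)
  filter_upwards [hP.far (|aa K₀ b| + 1), hP.eq, hB, hm.eventually_gt_atTop m,
    (eventually_all_finite (List.finite_length_le (Option κ) 5)).2 fun w _ => hP.tl 4 w η' t1]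
    with i a1 a2 a3 a4 a5
  have hQ := (y i).2.1
  have hA := (y i).2.2
  obtain ⟨K, k1, k2⟩ := h.en _ hQ j K₀ k0
  have i1 := (ng_inf k2).2 i0
  have ea := ng_aa k2 b
  have eψ := ng_ψ k2
  have l1 := le_abs_self (aa K₀ b)
  have l2 := neg_abs_le (aa K₀ b)
  have l3 := le_abs_self N
  have l4 := le_max_left (aa K₀ b) R
  obtain ⟨r, r1, r2, r3⟩ : ∃ r, aa K b + 1 ≤ r ∧ (∀ r' ∈ ρ i j b, r ≤ r') ∧
      ∀ w : List (Option κ), w.length ≤ 5 →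
        K.tl b (σ.β j b) (y i).1.2 (r - 4) w ≤ ENNReal.ofReal η' := by
    cases e : ρ i j b with
    | none =>
      obtain ⟨r, x1, x2⟩ := tail_asy K (hA.2 j b K k1 i1) t1 (aa K b + 1)
      exact ⟨r, x1, by simp, x2⟩
    | some r =>
      refine ⟨r, by linarith [a1 j b r e], fun _ k => (Option.some.inj k).le, fun w hw => ?_⟩
      simpa only [Nk.tl, Nk.pb, eψ, ng_far k2] using a5 w hw j b K₀ k0 i0 r e
  have d2 : jr b (aa K b - 1) ⊆ K.deep 2 := fun t ht =>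
    jr_deep K i1 2 (mem_jr (by linarith [mem_ofPred.1 ht]))
  have rg : ∀ x ∈ univ ×ˢ jv b (aa K b - 1) r, K.ψ x ∈ s.reg (ρ i) := fun x hx =>
    mem_reg h.toOK hQ k1 (jr_J K i1 (by linarith [hx.2.1])) fun b' _ r' hr' => by
      by_cases e : b' = b
      · subst e; linarith [hx.2.2, r2 r' hr']
      · rw [pm_ne e]; linarith [hx.2.1, a1 j b' r' hr']
  obtain ⟨τ, τ1, v, hv, hl⟩ := hm' b d.W (fun w => d.yt w j.1) (q i) (K.pb (y i).1.2) r (K.β b)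
    (ea ▸ ⟨r1, admOn_mono (Pb50.admOn_pb K hA.1) (prod_mono_right fun t ht =>
        jr_J K i1 (by linarith [mem_ofPred.1 ht])),
      alm_nk (h.ok _ hQ) k1 (a3.1 _ hQ) h1 (fun t ht => d2 ht.1) a2.1 rg,
      eq_nk (h.ok _ hQ) k1 (fun t ht => d2 (mem_jr (by linarith [ht.1, le_max_left (aa K b) R]))) a2.1
        (fun x hx => rg x ⟨trivial, by linarith [hx.2.1, le_max_left (aa K b) R], hx.2.2⟩)
        fun w hw x hx => hr₀ w _ hQ _ fun k => k j b K₀ k0 i0 ⟨x, ⟨trivial, ng_far k2 _ ▸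
          ⟨jr_J K i1 (by linarith [hx.2.1, le_max_left (aa K b) R]),
            ((hR i w hw).trans (le_max_right _ _)).trans_lt hx.2.1⟩⟩, by rw [eψ]⟩,
      sml_mono (sml_of (a3.1 _ hQ) j) le_rfl h1, fun _ => a3.2.sup _,
      (en_mono _ d2).trans ((en_nk k1 _).trans a3.2.en),
      fun t ht => a3.2.low j K k1 t (jr_deep K i1 3 (mem_jr (by linarith [mem_ofPred.1 ht]))),
      ht K b _ _ r i1 hA.1 hβ.crit.1 r1 r3⟩)
    (β_mem K) (ea ▸ β_zero K) (by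
      simpa only [Pz.mo, Option.mem_def.1 k0, Option.elim_some, Nk.mo, Nk.β, Nk.pb, eψ, ng_p k2,
        ng_q k2] using a4)
  exact ⟨K, k1, i1, τ, v, hv, hl, by linarith [τ1.1], by linarith [τ1.1, abs_nonneg (aa K₀ b)],
    fun r' hr' => by linarith [τ1.2, r2 r' hr', abs_nonneg (aa K₀ b)]⟩

theorem ky_end (hE : ExtStmt κ lam ν) (h : σ.OK) {q : d.W →₀ ℝ} {y : σ.Pnt}
    {ρ : d.𝓔 × Sl → Bool → Option ℝ} (e : Ex σ q y ρ) (far : ∀ j b, ∀ r ∈ ρ j b, 0 ≤ r)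
    {j : d.𝓔 × Sl} {K : Nk (d.e j.1) (σ.P y.1.1).bg} (hK : K ∈ (σ.P y.1.1).nk j) {b : Bool}
    (hb : K.Inf b) {n : ℕ} {τ B γ : ℝ} (h1 : 2 * n + 2 ≤ pm b * τ)
    (h2 : aa K b + (2 * n + 2) ≤ pm b * τ) (h3 : ∀ r ∈ ρ j b, pm b * τ + (2 * n + 2) ≤ r)
    {g : (d.e j.1).Gen} {V : Set (d.e j.1).YC} {v : (d.e j.1).YC}
    (hv : Gc g V (K.pb y.1.2) τ n B γ v) : ∃ y', Ky σ q y ρ j n v τ y' := by
  have n0 : (0 : ℝ) ≤ n := n.cast_nonneg
  refine ky hE h e hK (fun t ht => jr_J K hb ?_) (fun b' _ r hr => ?_) hv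
  · linarith [(pm_near b (s := τ) (d := n + 1) (t := t) (by linarith [ht.1]) (by linarith [ht.2])).1]
  · by_cases k : b' = b
    · subst k; linarith [h3 r hr]
    · rw [pm_ne k]; linarith [far j b' r hr]

variable (d Sl X nc nr T) in
/-- the field `fre` of `Sw.Brk` -/
def Fre (Γ : Ctx d) (C η₀ η : ℝ) : Prop :=
  ∀ (s : StS d Sl X) (σ : Cel s nc nr T), σ.OK → ∃ C', ∀ (ι : Type) (𝒰 : Ultrafilter ι) q y ρ q₀,
    σ.PS 𝒰 q y ρ → St.Cv (𝒰 : Filter ι) q q₀ → (∀ᶠ i in (𝒰 : Filter ι), σ.Sm η (q i) ∧ σ.Bnd C η₀ (y i)) →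
    ∀ j b, s.Inf j b → Tendsto (fun i => s.mo σ.β j b (y i).1.2) 𝒰 atTop →
    ∃ v ∈ Γ.V j.1, ∃ y' τ, |hol v| ≤ C' ∧ (∀ᶠ i in (𝒰 : Filter ι), σ.Eqv (y i) (y' i)) ∧
      σ.PS 𝒰 q y' ρ ∧ σ.Win 𝒰 y' ρ j v τ ∧ 0 < M.pm b * (L v - L (σ.β j b)) ∧
      (σ.Cen j → L (σ.β j true) < L v ∧ L v < L (σ.β j false)) ∧
      (¬σ.Cen j → Tendsto (fun i => M.pm b * τ i) 𝒰 atTop)

variable (d Sl X nc nr T) in
/-- the field `nec` of `Sw.Brk` -/
def Nec (Γ : Ctx d) (C η₀ η : ℝ) : Prop :=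
  ∀ (s : StS d Sl X) (σ : Cel s nc nr T), σ.OK → ∀ j B, s.nk j = none → σ.HolB j B →
    (∀ w, ∃ r, ∀ t ∈ σ.Q, ∀ K ∈ (σ.P t).nk j, ∀ x ∈ univ ×ˢ K.deep r, (σ.P t).fo w (K.ψ x) = 0) →
    ∃ C', ∀ (ι : Type) (𝒰 : Ultrafilter ι) q y ρ q₀,
    σ.PS 𝒰 q y ρ → St.Cv (𝒰 : Filter ι) q q₀ → (∀ᶠ i in (𝒰 : Filter ι), σ.Sm η (q i) ∧ σ.Bnd C η₀ (y i)) →
    Tendsto (fun i => (σ.P (y i).1.1).len j) 𝒰 atTop →
    ∃ v ∈ Γ.V j.1, ∃ y' τ, |hol v| ≤ C' ∧ (∀ᶠ i in (𝒰 : Filter ι), σ.Eqv (y i) (y' i)) ∧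
      σ.PS 𝒰 q y' ρ ∧ σ.Win 𝒰 y' ρ j v τ

theorem fre (hD : DlStmt κ lam ν) (hR : DriftStmt κ lam ν) (hM : MonoStmt κ lam ν)
    (hG : GwStmt κ lam ν) (hE : ExtStmt κ lam ν) (Γ : Ctx d) (C : ℝ) (h0 : 0 < η₀) :
    ∃ η₁ > 0, ∀ η ≤ η₁, ∀ (X : Mf 4) (nc nr : ℕ) (T : Type) [NormedAddCommGroup T] [NormedSpace ℝ T]
      [FiniteDimensional ℝ T], Fre d Sl X nc nr T Γ C η₀ η := by
  choose γ γ0 hγ using fun ε => gap_unif fun o => L ((Γ.g ε).pt o)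
  choose μ μ0 hμ using fun ε => hM (d.e ε) (Γ.g ε) (Γ.ok ε) C (γ ε / (|C| + 1))
    (by have := γ0 ε; positivity)
  obtain ⟨η₁, e1, e2⟩ := ((eventually_all.2 fun ε => nhdsWithin_le_nhds (Iic_mem_nhds (μ0 ε))).and
    (self_mem_nhdsWithin (s := Ioi (0 : ℝ)))).exists
  refine ⟨min η₁ 1, lt_min e2 one_pos, fun η hη X nc nr T _ _ _ s σ h => ?_⟩
  have h1 := hη.trans (min_le_right _ _)
  choose! C' hC using fun (p : (d.𝓔 × Sl) × Bool) (hb : s.Inf p.1 p.2) =>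
    endK hD hR hG Γ h C h0 h1 (γ0 p.1.1) hb
  obtain ⟨B, hB⟩ := Finite.exists_le C'
  refine ⟨B, fun ι 𝒰 q y ρ q₀ hP hq hb j b i0 hm => ?_⟩
  by_cases hc : σ.Cen j
  · obtain ⟨c1, -, -, -, c2, ⟨K₀, k0, p0, q0⟩, c3⟩ := id hc
    have i1 : ∀ b, K₀.Inf b := fun b => by cases b; exacts [p0, q0]
    have em : ∀ b', Tendsto (fun i => s.mo σ.β j b' (y i).1.2) 𝒰 atTop := fun b' =>
      hm.congr' (hP.eq.mono fun i hi => by
        have := (c3 _ _ ⟨0, by omega⟩).symm.trans (congrFun hi.2.2 _)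
        cases b <;> cases b' <;> simp only [Pi.zero_apply] at this ⊢ <;> linarith)
    obtain ⟨v, v1, y', τ, v2, v3, v4, v5, v6, -⟩ := fin hP hm (Γ.rs j.1) (C := B) (A := False)
      (Pv := fun v => L (σ.β j true) < L v ∧ L v < L (σ.β j false)) (f := id) fun n => by
      filter_upwards [hC (j, true) ⟨K₀, k0, i1 _⟩ ι 𝒰 q y ρ q₀ hP hq hb (em _) n (2 * n + 2),
        hC (j, false) ⟨K₀, k0, i1 _⟩ ι 𝒰 q y ρ q₀ hP hq hb (em _) n (2 * n + 2), hP.far 0, hP.eq, hb]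
        with i ⟨K, k1, i2, τ, v, a1, a2, a3, a4, a5⟩ ⟨K', k1', _, τ', v', b1, b2, b3, _, b5⟩ f1 f2 f3
      obtain rfl := Option.mem_unique k1 k1'
      have hQ := (y i).2.1
      obtain ⟨K', k3, k2⟩ := h.en _ hQ j K₀ k0
      obtain rfl := Option.mem_unique k1 k3
      have n0 : (0 : ℝ) ≤ n := n.cast_nonneg
      have dp : ∀ t, t ∈ K.J ∧ t ∈ K.deep 2 := fun t => by
        simp [Nk.deep, Jv, ng_p k2, ng_q k2, p0, q0]
      simp only [pm, if_true, Bool.false_eq_true, if_false, one_mul, neg_mul] at a2 a3 a5 b2 b3 b5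
      have m := (hμ j.1 d.W (fun w => d.yt w j.1) (q i) (K.pb (y i).1.2) (some (τ' - 2))
        (some (τ + 2)) (sml_mono (sml_of (f3.1 _ hQ) j) (by norm_num)
          (hη.trans ((min_le_left _ _).trans (e1 _))))
        ⟨admOn_mono (Pb50.admOn_pb K (y i).2.2.1) (prod_mono_right fun t _ => (dp t).1),
          eq_nk (h.ok _ hQ) k1 (fun t _ => (dp t).2) f2.1 (fun x hx => mem_reg h.toOK hQ k1 (dp _).1
            fun b' _ r hr => by
              have x1 := hx.2.1 _ rfl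
              have x2 := hx.2.2 _ rfl
              cases b' <;> simp only [pm, if_true, Bool.false_eq_true, if_false, one_mul, neg_mul]
              · linarith [b5 r hr]
              · linarith [a5 r hr]) fun w _ x _ => congrFun (c2 _ w) _⟩
        fun _ _ => f3.2.sup _).2 τ' τ (by linarith)
        (Jv_some _ _ ▸ ⟨by linarith, by linarith⟩) (Jv_some _ _ ▸ ⟨by linarith, by linarith⟩)
      have m1 : (en (K.pb (y i).1.2) (Ioo (τ' - 1) (τ + 1))).toReal ≤ |C| + 1 :=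
        ENNReal.toReal_le_of_le_ofReal (by positivity) ((en_mono _ fun t _ => (dp t).2).trans
          ((en_nk k1 _).trans (f3.2.en.trans (ENNReal.ofReal_le_ofReal
            (by linarith [le_abs_self C])))))
      have m2 := mul_le_mul_of_nonneg_left m1 (show 0 ≤ γ j.1 / (|C| + 1) by
        have := γ0 j.1; positivity)
      rw [div_mul_cancel₀ _ (by positivity)] at m2
      have m3 := abs_le.1 (a1.lv τ ⟨by linarith, by linarith⟩)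
      have m4 := abs_le.1 (b1.lv τ' ⟨by linarith, by linarith⟩)
      obtain ⟨o, ho⟩ := a1.o
      obtain ⟨o', ho'⟩ := b1.o
      have m5 := hγ j.1 o o' (by
        rw [← ho, ← ho']
        linarith [m3.1, m4.2, ENNReal.toReal_nonneg (a := en (K.pb (y i).1.2) (Ioo τ' τ))])
      rw [← ho, ← ho'] at m5
      exact ⟨v, a1.V, a1.hol.trans (hB _), ⟨by linarith, by linarith⟩, τ, False.elim,
        ky_end hE h f2 f1 k1 i2 (by simpa [pm] using a3) a4 (by simpa [pm] using a5) a1⟩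
    exact ⟨v, v1, y', τ, v2, v3, v4, v5, by cases b <;> simp [pm, v6.1, v6.2], fun _ => v6,
      fun k => (k hc).elim⟩
  · obtain ⟨v, v1, y', τ, v2, v3, v4, v5, v6, v7⟩ := fin hP hm (Γ.rs j.1) (C := B) (A := True)
      (Pv := fun v => 0 < pm b * (L v - L (σ.β j b))) (f := fun t => pm b * t) fun n => by
      filter_upwards [hC (j, b) i0 ι 𝒰 q y ρ q₀ hP hq hb hm n (2 * n + 2), hP.far 0, hP.eq]
        with i ⟨K, k1, i2, τ, v, a1, a2, a3, a4, a5⟩ f1 f2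
      exact ⟨v, a1.V, a1.hol.trans (hB _), a2, τ, fun _ => by linarith [n.cast_nonneg (α := ℝ)],
        ky_end hE h f2 f1 k1 i2 a3 a4 a5 a1⟩
    exact ⟨v, v1, y', τ, v2, v3, v4, v5, v6, fun k => (hc k).elim, fun _ => v7 trivial⟩

theorem nec (hR : DriftStmt κ lam ν) (hG : GwStmt κ lam ν) (hE : ExtStmt κ lam ν) (Γ : Ctx d)
    (C : ℝ) (h0 : 0 < η₀) (h1 : η ≤ 1) : Nec d Sl X nc nr T Γ C η₀ η := by
  intro s σ h j B hn hB hf
  obtain ⟨C', hc⟩ := coreN hR hG (Γ.ok j.1) (Γ.rs j.1) C (1 + Fintype.card (d.𝓔 × Sl))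
    (|B| * (1 + |C|)) h0
  refine ⟨C', fun ι 𝒰 q y ρ q₀ hP hq hb hm => ?_⟩
  choose r₀ hr₀ using hf
  obtain ⟨R, hR⟩ := supp_cv hq r₀
  obtain ⟨v, v1, y', τ, v2, v3, v4, v5, -⟩ := fin hP hm (Γ.rs j.1) (C := C') (A := False)
    (Pv := fun _ => True) (f := id) fun n => by
    obtain ⟨m, hm'⟩ := hc n (max 3 R) (le_max_left _ _)
    filter_upwards [hm.eventually_ge_atTop m, hm.eventually_gt_atTop 6, hP.eq, hb] with i a1 a2 f2 f3
    have hQ := (y i).2.1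
    have hA := (y i).2.2.1
    obtain ⟨K, k1, x, z, p0, q0⟩ : ∃ K ∈ (σ.P (y i).1.1).nk j, ∃ x z, K.p = some x ∧ K.q = some z := by
      rcases h.nk _ hQ j hn with k | ⟨K, k1, x, z, k2, k3, -⟩
      · cases e : (σ.P (y i).1.1).nk j with
        | none => simp only [Pz.len, e, Option.elim_none] at a2; linarith
        | some K => exact ⟨K, rfl, (k.self_of_nhds K e).imp fun _ k => ⟨_, k⟩⟩
      · exact ⟨K, k1, x, z, k2, k3⟩
    simp only [Pz.len, Option.mem_def.1 k1, Option.elim_some, p0, q0, Option.getD_some] at a1 a2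
    have eJ : K.J = Ioo x z := by rw [Nd18.Nk.J, p0, q0, Jv_some]
    have eD : ∀ r, K.deep r = Ioo (x + r) (z - r) := fun r => by
      rw [Nk.deep, p0, q0]; exact Jv_some _ _
    have ni : ∀ b, ¬K.Inf b := fun b => by cases b <;> simp [Nk.Inf, p0, q0]
    have rg : ∀ x ∈ univ ×ˢ K.deep 2, K.ψ x ∈ s.reg (ρ i) := fun x hx =>
      mem_reg h.toOK hQ k1 (Pb50.deep_J K two_pos hx.2) fun b k => (ni b k).elim
    have sb : ∀ r ≤ max 3 R, Ioo (x + max 3 R) (z - max 3 R) ⊆ K.deep r := fun r hr =>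
      eD r ▸ Ioo_subset_Ioo (by linarith) (by linarith)
    have s2 := sb 2 (by linarith [le_max_left 3 R])
    obtain ⟨t, t1, t2, t3⟩ := hB _ hQ K k1 _ hA (f3.2.en.trans_lt ENNReal.ofReal_lt_top).ne
      (eD 3 ▸ (nonempty_Ioo.2 (by linarith)).ne_empty)
    obtain ⟨τ, τ1, v, hv⟩ := hm' d.W (fun w => d.yt w j.1) (q i) (K.pb (y i).1.2) x z a1
      (eJ ▸ Pb50.admOn_pb K hA) (eD 2 ▸ alm_nk (h.ok _ hQ) k1 (f3.1 _ hQ) h1 Subset.rfl f2.1 rg)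
      (eq_nk (h.ok _ hQ) k1 s2 f2.1 (fun x hx => rg x ⟨trivial, s2 hx.2⟩) fun w hw x hx =>
        hr₀ w _ hQ K k1 x ⟨trivial, sb _ ((hR i w hw).trans (le_max_right _ _)) hx.2⟩)
      (sml_mono (sml_of (f3.1 _ hQ) j) le_rfl h1) (fun _ => f3.2.sup _)
      (eD 2 ▸ (en_nk k1 _).trans f3.2.en) (eD 3 ▸ f3.2.low j K k1)
      ⟨t, eD 2 ▸ t1, eD 3 ▸ t2, t3.trans (mul_le_mul (le_abs_self B) (add_le_add_right
        (ENNReal.toReal_le_of_le_ofReal (abs_nonneg C) (f3.2.en.trans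
          (ENNReal.ofReal_le_ofReal (le_abs_self C)))) _) (by positivity) (abs_nonneg B))⟩
    exact ⟨v, hv.V, hv.hol, trivial, τ, False.elim,
      ky hE h f2 k1 (eJ ▸ τ1) (fun b k => (ni b k).elim) hv⟩
  exact ⟨v, v1, y', τ, v2, v3, v4, v5⟩

end Crest.Agent.X212.Brk46
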