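import Crest.Agent.X212.Brk46.Cy
import Crest.Agent.X212.Sep15.End

/-!
# Row 212, SW-BRK (helper46): one gauge on a long window of small energy
-/

set_option autoImplicit false
set_option linter.unusedSectionVars false
noncomputable section
open scoped Manifold ContDiff Topology InnerProductSpace
open MeasureTheory Set Function Filter

namespace Crest.Agent.X212.Brk46
open An Cyf70 Sw Sw.En3 Sep15.S
open Nd18 (Jv ct)
open M (Mf pm)

variable {κ lam ν : Type} [Fintype κ] [Fintype lam] [Fintype ν] [DecidableEq ν] {e : En3 κ lam ν}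

theorem cl_eqv (H : e.OK) {v v' : e.YC} (hv : e.cyl.Adm (fz v)) (hv' : e.cyl.Adm (fz v')) (k : ℕ)
    {ε : ℝ} (hε : 0 < ε) : ∃ η > 0, ∀ η' ≤ η, ∀ (c : e.ZC) (T : Set ℝ) g, IsOpen T →
      e.cyl.AdmOn c (univ ×ˢ T) → Gau e.Y.I g → fz v' = e.cyl.act (fun x => g x.1) (fz v) →
      Cl c (fz v) T k η' → Cl (e.cyl.act (fun x => g x.1) c) (fz v') T k ε := by
  obtain ⟨B, hB⟩ := cl_fz hv hv' k
  obtain ⟨η, h0, hη⟩ := cl_act H k (1 + B) hε
  refine ⟨min 1 η, by positivity, fun η' h' c T g hT a hg h h1 => ?_⟩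
  exact zero_add ε ▸ hη (fz v) _ (fz v') _ _ 0 hT zero_le_one (admOn_of hv _) a (admOn_of hv' _)
    (gauOn_of (Pb50.gau_fst hg) _) (cl_tri hT a (admOn_of hv _) (admOn_of hv' _)
      (cl_mono h1 Subset.rfl le_rfl (h'.trans (min_le_left _ _))) (hB _ hT))
    (cl_symm hT a (admOn_of hv _) h0.le (cl_mono h1 Subset.rfl le_rfl (h'.trans (min_le_right _ _))))
    (h ▸ cl_self le_rfl)

theorem gau_exp {χ : e.Y.M × ℝ → ℝ} (h : Sm e.Z.I χ) :
    Gau e.Z.I fun x => Complex.exp (χ x * Complex.I) :=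
  ⟨fun x => sa_exp (h x), fun _ => Complex.norm_exp_ofReal_mul_I _⟩

theorem gau_mul {u u' : e.Y.M × ℝ → ℂ} (h : Gau e.Z.I u) (h' : Gau e.Z.I u') :
    Gau e.Z.I fun x => u x * u' x :=
  ⟨fun x => Wz78.SA.mul (h.1 x) (h'.1 x), fun x => by rw [norm_mul, h.2, h'.2, one_mul]⟩

/-- a gauge transformation that has a logarithm at one time can be cut off -/
theorem cut_gau {u : e.Y.M × ℝ → ℂ} {T : Set ℝ} (hT : IsOpen T) (hu : GauOn e.Z.I u (univ ×ˢ T))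
    {τ r : ℝ} (hr : 0 ≤ r) (hs : Icc (τ - r - 1) (τ + r + 1) ⊆ T) {χ : e.Y.M → ℝ} (hχ : Sm e.Y.I χ)
    (h : ∀ y, u (y, τ) = Complex.exp (χ y * Complex.I)) : ∃ U, Gau e.Z.I U ∧
      (∀ x, x.2 ∉ Icc (τ - r - 1) (τ + r + 1) → U x = 1) ∧
      ∀ x ∈ univ ×ˢ Ioo (τ - r) (τ + r), U x = u x := by
  let β := ct (some (τ - r - 1)) (some (τ + r + 1)) 0
  have sβ : ContDiff ℝ ∞ β := Nd18.contDiff_ct
  have b0 : ∀ t ∉ Icc (τ - r - 1) (τ + r + 1), β t = 0 := fun t ht => Nd18.ct_zero fun k =>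
    ht ⟨by simpa using k.1 _ rfl, by simpa using k.2 _ rfl⟩
  have l1 : ∀ t, τ + β t * (t - τ) ∈ T := fun t => hs (by
    by_cases ht : t ∈ Icc (τ - r - 1) (τ + r + 1)
    · obtain ⟨k1, k2⟩ : β t ∈ Icc (0 : ℝ) 1 := Nd18.ct_mem
      constructor <;> nlinarith [ht.1, ht.2]
    · rw [b0 t ht]; constructor <;> linarith)
  have sl : ContDiff ℝ ∞ fun t => τ + β t * (t - τ) := by fun_prop
  refine ⟨_, gau_mul (u := fun x => u (x.1, τ + β x.2 * (x.2 - τ)))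
    ⟨fun x => (Win39.gau_at hT hu (x := (x.1, _)) ⟨trivial, l1 _⟩).comp x
      (contMDiffAt_fst.prodMk (sl.contMDiff.contMDiffAt.comp x contMDiffAt_snd)),
      fun x => hu.2 _ ⟨trivial, l1 _⟩⟩
    (gau_exp (χ := fun x => (β x.2 - 1) * χ x.1) fun x =>
      Wz78.SA.mul (sm_snd (sβ.sub contDiff_const) x) (sm_fst hχ x)), fun x hx => ?_, fun x hx => ?_⟩
  · simp [b0 _ hx, h, ← Complex.exp_add]
  · have : β x.2 = 1 := Nd18.ct_one ⟨fun a ha => by cases ha; linarith [hx.2.1],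
      fun a ha => by cases ha; linarith [hx.2.2]⟩
    simp [this]

theorem gwStmt (hW : WinStmt κ lam ν) (hD : DecStmt κ lam ν) : GwStmt κ lam ν := by
  intro e g V hg hV C η₀ γ h0 hγ
  have H := hg.ok
  obtain ⟨η₁, e1, h1⟩ := hW.sep e g hg
  obtain ⟨η₂, e2, h2⟩ := pos_all (P := fun o η => ∀ c s, e.cyl.AdmOn c (univ ×ˢ win s) →
      Nr c (g.pt o) s 1 η → ∀ t ∈ win s, |L (sl c t) - L (g.pt o)| ≤ min γ (η₀ / 2) ∧
        |nm (sl c t) - nm (g.pt o)| ≤ min γ (η₀ / 2) ∧ gn (sl c t) ≤ min γ (η₀ / 2)) fun o =>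
    (hW.lv e _ H (hg.inv ⟨o⟩) (hg.crit o) _ (by positivity)).imp fun _ h =>
      ⟨h.1, fun _ k c s a b => h.2 c s a (nr_mono b le_rfl k)⟩
  choose δ d0 η₃ e3 D h3 using fun i => hD e (g.x i) H hg.w (hg.crit (.inl i)) (hg.nd (.inl i))
    (hg.irr i) (hg.S (.inl i))
  obtain ⟨η₄, e4, h4⟩ := pos_all (P := fun i η => η ≤ η₃ i) fun i => ⟨_, e3 i, fun _ => id⟩
  obtain ⟨η, e0, m1, m2, m4⟩ : ∃ η > 0, η ≤ η₁ ∧ η ≤ η₂ ∧ η ≤ η₄ :=
    ⟨min η₁ (min η₂ η₄), by positivity, min_le_left _ _, (min_le_right _ _).trans (min_le_left _ _),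
      (min_le_right _ _).trans (min_le_right _ _)⟩
  obtain ⟨ε, e5, h5⟩ := hW.nr e g hg C η 2 e0
  obtain ⟨η₆, e6, h6⟩ := hol_cl H
  refine ⟨ε, e5, fun B n => ?_⟩
  have := (hV.fin (B + 1)).to_subtype
  obtain ⟨η₇, e7, h7⟩ := pos_all fun p : g.ι × {v ∈ V | |hol v| ≤ B + 1} =>
    cl_eqv H (hg.crit (.inl p.1)).1 (hV.gd _ p.2.2.1).crit.1 n (Nat.one_div_pos_of_nat (n := n))
  have n0 : (0 : ℝ) ≤ n := n.cast_nonneg
  obtain ⟨l, l1, l2⟩ := ((eventually_ge_atTop (n + 5 : ℝ)).and (eventually_all.2 fun i =>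
    (show Tendsto (fun l => |D i n| * η * (2 * Real.exp (-δ i * (l - 2 - n)))) atTop (𝓝 0) by
      simpa using ((Real.tendsto_exp_atBot.comp ((tendsto_atTop_add_const_right _ (-2 - n : ℝ)
        tendsto_id).const_mul_atTop_of_neg (neg_lt_zero.2 (d0 i)))).congr (fun l => by
          simp only [comp, id]; congr 2; ring)).const_mul 2 |>.const_mul (|D i n| * η)).eventually
      (ge_mem_nhds (lt_min e6 e7)))).exists
  refine ⟨l, by linarith, fun W T q c τ hs hl hS hE hn hB => ?_⟩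
  have ad : ∀ {I : Set ℝ}, I ⊆ Ioo (τ - l - 1) (τ + l + 1) → e.cyl.AdmOn c (univ ×ˢ I) := fun h =>
    admOn_mono (Win45.loc_adm hl) (prod_mono_right h)
  have w1 : ∀ s ∈ Icc (τ - l + 2) (τ + l - 2), win s ⊆ Ioo (τ - l - 1) (τ + l + 1) := fun s hs =>
    Ioo_subset_Ioo (by linarith [hs.1]) (by linarith [hs.2])
  have ex0 : ∀ s ∈ Icc (τ - l + 2) (τ + l - 2), ∃ o, Nr c (g.pt o) s 2 η := fun s k =>
    have m : Ioo (s - 2) (s + 2) ⊆ Ioo (τ - l) (τ + l) :=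
      Ioo_subset_Ioo (by linarith [k.1]) (by linarith [k.2])
    h5 W T q c s hs (loc_mono hl (fun a ha => ⟨_, rfl, by cases ha; linarith [k.1]⟩)
      fun a ha => ⟨_, rfl, by cases ha; linarith [k.2]⟩) (fun x hx => hS x ⟨trivial, m hx.2⟩)
      ((en_mono c m).trans hE)
  obtain ⟨o, ho⟩ := ex0 (τ + l - 2) ⟨by linarith, le_rfl⟩
  have key := chain (fun s hs s' hs' k o o' a a' => h1 c _ _ o o' k
    (ad (union_subset (w1 s hs) (w1 s' hs'))) (nr_mono a one_le_two m1) (nr_mono a' one_le_two m1))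
    ex0 ho
  have τ1 : τ ∈ Icc (τ - l + 2) (τ + l - 2) := ⟨by linarith, by linarith⟩
  have τ2 : τ ∈ win τ := ⟨by linarith, by linarith⟩
  have lv := h2 o c τ (ad (w1 τ τ1)) (nr_mono (key τ τ1) one_le_two m2)
  rcases o with i | j
  swap
  · have k := (le_abs_self _).trans ((lv τ τ2).2.1.trans (min_le_right _ _))
    simp only [Gen.pt, Sum.elim_inr, nm, hg.red, norm_zero] at k hn
    simp only [ne_eq, OfNat.ofNat_ne_zero, not_false_eq_true, zero_pow, integral_zero] at k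
    linarith
  have hx := hg.crit (.inl i)
  obtain ⟨u, hu, h8⟩ := h3 i n W T q c (some (τ - l + 1)) (some (τ + l - 1)) η (m4.trans (h4 i))
    (loc_mono hl (fun a ha => ⟨_, rfl, by cases ha; linarith⟩)
      fun a ha => ⟨_, rfl, by cases ha; linarith⟩) fun s k => key s (by
        rw [Jv_some, win, Ioo_subset_Ioo_iff (by linarith)] at k
        exact ⟨by linarith [k.1], by linarith [k.2]⟩)
  rw [Jv_some] at hu h8
  have s1 : Icc (τ - n - 1) (τ + n + 1) ⊆ Ioo (τ - l + 1) (τ + l - 1) := fun t ht =>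
    ⟨by linarith [ht.1], by linarith [ht.2]⟩
  have s2 : Ioo (τ - n - 1) (τ + n + 1) ⊆ Ioo (τ - l + 1) (τ + l - 1) := Ioo_subset_Icc_self.trans s1
  have τ3 : τ ∈ Ioo (τ - n - 1) (τ + n + 1) := ⟨by linarith, by linarith⟩
  have c1 : Cl (e.cyl.act u c) (fz (g.x i)) (Ioo (τ - n - 1) (τ + n + 1)) n (min η₆ η₇) :=
    fun w hw x hx => cl_mono (h8 x.2 (Ioo_subset_Ioo (by linarith [hx.2.1]) (by linarith [hx.2.2])))
      Subset.rfl le_rfl (le_trans (by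
        have k1 := Real.exp_le_exp.2 (mul_le_mul_of_nonpos_left (show l - 2 - n ≤ x.2 - (τ - l + 1) by
          linarith [hx.2.1]) (neg_nonpos.2 (d0 i).le))
        have k2 := Real.exp_le_exp.2 (mul_le_mul_of_nonpos_left (show l - 2 - n ≤ τ + l - 1 - x.2 by
          linarith [hx.2.2]) (neg_nonpos.2 (d0 i).le))
        refine mul_le_mul (by gcongr; exact le_abs_self _) ?_ ?_ (by positivity)
        · simp only [ex, Option.elim_some]; linarith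
        · simp only [ex, Option.elim_some]; positivity) (l2 i)) w hw x
        ⟨trivial, by linarith, by linarith⟩
  have hu2 := gauOn_mono hu (prod_mono_right s2)
  have a1 := admOn_act H isOpen_Ioo (ad (s2.trans (Ioo_subset_Ioo (by linarith) (by linarith)))) hu2
  have g0 := (Win39.gau_sl isOpen_Ioo hu2 τ3).1
  have g1 : Gau e.Y.I fun y => star (u (y, τ)) :=
    ⟨fun y => Pb50.sa_star (g0.1 y), fun y => by rw [norm_star, g0.2]⟩
  obtain ⟨v₁, q1⟩ : ∃ v₁, fz v₁ = e.cyl.act (fun x => star (u (x.1, τ))) (fz (g.x i)) :=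
    ⟨_, Pb50.sl_act (s := 0) (fz (g.x i)) fun y => (Pb50.gau_fst g1).1 _⟩
  have q2 := Pb50.Eqv.crit H hx ⟨_, g1, q1⟩
  obtain ⟨v, hv, χ, hχ, q3⟩ := hV.all v₁ q2 ((hg.irr i).imp fun y hy => by
    rw [← norm_ne_zero_iff] at hy ⊢
    rwa [show v₁.Φ y = (fz v₁).Φ (y, 0) from rfl, q1, Pb50.norm_act H.cyl (g1.2 y)])
  have g2 := gau_exp (sm_fst hχ : Sm e.Z.I fun x => χ x.1)
  have g3 := gau_mul g2 (Pb50.gau_fst g1)
  have g4 : Gau e.Y.I fun y => Complex.exp (χ y * Complex.I) * star (u (y, τ)) :=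
    ⟨sm_slice_fst g3.1 0, fun y => g3.2 (y, 0)⟩
  have q4 := q3.trans (q1 ▸ Pb50.act_act H.cyl (Pb50.gau_fst g1) g2 _)
  have ho : |hol v| ≤ B + 1 := by
    have k1 := h6 _ _ _ τ n τ3 (adm_sl isOpen_Ioo a1 τ3) hx.1
      (cl_mono c1 Subset.rfl le_rfl (min_le_left _ _))
    rw [Dr9.hol_act H (adm_sl isOpen_Ioo (ad (w1 τ τ1)) τ2) g0.1
      (Pb50.sl_act c fun y => Win39.gau_at isOpen_Ioo hu2 ⟨trivial, τ3⟩)] at k1
    rw [Dr9.hol_eq0 H q2.1 ⟨χ, hχ, q3⟩, Dr9.hol_act H hx.1 g1.1 q1]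
    simp only [fun y k => Pb50.th_star e.D.F.toPre (g0.1 y) k, mul_neg, Finset.sum_neg_distrib,
      integral_neg]
    rw [abs_le] at k1 hB ⊢
    constructor <;> linarith only [k1.1, k1.2, hB.1, hB.2]
  have eL : L v = L (g.pt (.inl i)) := hg.inv ⟨.inl i⟩ _ _ hx.1 ⟨_, g4, q4⟩
  have g5 := gauOn_mul hu (gauOn_of (Pb50.gau_fst g4) _)
  obtain ⟨U, U1, U2, U3⟩ := cut_gau isOpen_Ioo g5 n0 s1 hχ fun y => by
    rw [mul_assoc, Pb50.star_mul_one (g0.2 y), mul_one]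
  have c2 := h7 (i, ⟨v, hv, ho⟩) _ _ _ isOpen_Ioo a1 g4 q4
    (cl_mono c1 Subset.rfl le_rfl (min_le_right _ _))
  have c3 := (ag_mul H isOpen_Ioo hu2 (gauOn_of (Pb50.gau_fst g4) _) c).symm.cl isOpen_Ioo c2
  have c4 := (ag_act isOpen_Ioo U3 c).cl isOpen_Ioo
    (cl_mono c3 (Ioo_subset_Ioo (by linarith) (by linarith)) le_rfl le_rfl)
  refine ⟨v, hv, ho, ⟨_, eL⟩, fun t ht => ?_, U, U1, U2, c4⟩
  rw [eL]
  exact (lv t ht).1.trans (min_le_left _ _)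

end Crest.Agent.X212.Brk46
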