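import Crest.Agent.X212.Brk46.Cy
import Crest.Agent.X212.Pb50.Pt

/-!
# Row 212, SW-BRK (helper46): necks of cells, windows of level `n`, the diagonal sequence
-/

set_option autoImplicit false
set_option linter.unusedSectionVars false
noncomputable section
open scoped Manifold ContDiff Topology InnerProductSpace
open MeasureTheory Set Function Filter

namespace Crest.Agent.X212.Brk46
open An Cyf70 Sw Sw.En3 Sep15.S
open Nd18 (Jv)
open M (Mf pm)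
open Win45 (Alm)
open Pb50 (ng_p ng_q ng_ψ ng_inf ng_far)

theorem diag {ι : Type} {l : Filter ι} {m : ι → ℝ} (hm : Tendsto m l atTop) {P : ℕ → ι → Prop}
    (h : ∀ n, ∀ᶠ i in l, P n i) : ∃ n : ι → ℕ, Tendsto n l atTop ∧ ∀ᶠ i in l, P (n i) i := by
  classical
  have k : ∀ n : ℕ, ∀ᶠ i in l, n ≤ ⌊m i⌋₊ ∧ P n i := fun n =>
    ((tendsto_nat_floor_atTop.comp hm).eventually_ge_atTop n).and (h n)
  exact ⟨fun i => Nat.findGreatest (fun n => P n i) ⌊m i⌋₊, tendsto_atTop.2 fun n =>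
    (k n).mono fun i hi => Nat.le_findGreatest hi.1 hi.2,
    (k 0).mono fun i hi => Nat.findGreatest_spec (P := fun n => P n i) hi.1 hi.2⟩

theorem gap_unif {α : Type} [Finite α] (l : α → ℝ) :
    ∃ γ > 0, ∀ o o', l o ≤ l o' + 3 * γ → l o ≤ l o' := by
  have : ∀ᶠ γ in 𝓝[>] (0 : ℝ), ∀ o o', l o ≤ l o' + 3 * γ → l o ≤ l o' :=
    eventually_all.2 fun o => eventually_all.2 fun o' => by
      rcases le_or_gt (l o) (l o') with h | h
      · exact .of_forall fun _ _ => h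
      · exact mem_nhdsWithin_of_mem_nhds ((gt_mem_nhds (show 0 < (l o - l o') / 3 by linarith)).mono
          fun γ hγ k => by linarith)
  exact (this.and self_mem_nhdsWithin).exists.imp fun _ h => ⟨h.2, h.1⟩

variable {κ lam ν : Type} [Fintype κ] [Fintype lam] [Fintype ν] [DecidableEq ν]
  {X : Mf 4} {nc nr : ℕ}

section nk
variable {e : En3 κ lam ν} {B : Bg X.I X.M κ lam ν nc} (K : Nk e B) {b : Bool}

/-- the start of the moment -/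
def aa (b : Bool) : ℝ := if b then K.p.getD (-3) + 3 else 3 - K.q.getD 4

theorem jr_deep (h : K.Inf b) (d : ℝ) : jr b (aa K b + d - 3) ⊆ K.deep d := fun t ht => by
  have ht : aa K b + d - 3 < pm b * t := ht
  cases b
  · have hp : K.p = none := h
    refine mem_Jv_map.2 ⟨by simp [hp], fun a ha => ?_⟩
    simp only [aa, pm, Option.mem_def.1 ha, Bool.false_eq_true, if_false, Option.getD_some] at ht
    linarith
  · have hq : K.q = none := h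
    refine mem_Jv_map.2 ⟨fun a ha => ?_, by simp [hq]⟩
    simp only [aa, pm, Option.mem_def.1 ha, if_true, Option.getD_some] at ht
    linarith

theorem jr_J (h : K.Inf b) {t : ℝ} (ht : aa K b - 3 < pm b * t) : t ∈ K.J := by
  simpa [Nk.deep] using jr_deep K h 0 (mem_jr (t := t) (by linarith))

theorem β_mem (t : ℝ) : K.β b t ∈ Icc (0 : ℝ) 1 := by
  cases b
  · exact ⟨sub_nonneg.2 (Real.smoothTransition.le_one _),
      sub_le_self _ (Real.smoothTransition.nonneg _)⟩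
  · exact ⟨Real.smoothTransition.nonneg _, Real.smoothTransition.le_one _⟩

theorem β_zero (t : ℝ) (h : t ∉ jr b (aa K b)) : K.β b t = 0 := by
  have h : pm b * t ≤ aa K b := not_lt.1 h
  cases b
  · simp only [aa, pm, Bool.false_eq_true, if_false] at h
    exact sub_eq_zero.2 (Real.smoothTransition.one_of_one_le (by linarith)).symm
  · simp only [aa, pm, if_true] at h
    exact Real.smoothTransition.zero_of_nonpos (by linarith)

/-- small tails -/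
theorem tail (he : e.OK) {η : ℝ} (h0 : 0 < η) : ∃ η' > 0, ∀ {X : Mf 4} {nc : ℕ}
    {B : Bg X.I X.M κ lam ν nc} (K : Nk e B) b v c r, K.Inf b → B.Adm c → e.cyl.Adm (fz v) →
    aa K b + 1 ≤ r → (∀ w : List (Option κ), w.length ≤ 5 → K.tl b v c (r - 4) w ≤ ENNReal.ofReal η') →
    Cl (K.pb c) (fz v) (jr b (r - 1)) 1 η := by
  obtain ⟨η', h1, h2⟩ := Cut71.cl_of_tlz he 1 h0
  refine ⟨η', h1, fun K b v c r hK hc hv hr h w hw x hx => ?_⟩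
  have hx2 : r - 1 < pm b * x.2 := hx.2
  have k : ∀ t ∈ Ioo (pm b * max r (pm b * x.2) - 4) (pm b * max r (pm b * x.2) + 4),
      t ∈ K.far b (r - 4) := fun t ht => by
    have : r - 4 < pm b * t := by
      have := le_max_left r (pm b * x.2)
      cases b <;> simp only [pm, if_true, Bool.false_eq_true, if_false] at * <;> linarith [ht.1, ht.2]
    exact ⟨jr_J K hK (by linarith), this⟩
  refine h2 (K.pb c) v _ hv (fun z hz => Pb50.la_ψ K (K.mem_src.2 (k _ hz.2).1) (.of_adm hc _))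
    (fun w hw => (Cut71.tlz_mono k).trans (h w hw)) w hw x ⟨trivial, ?_⟩
  rcases max_cases r (pm b * x.2) with k | k <;> rw [k.1]
  · have := k.2
    cases b <;> simp only [pm, if_true, Bool.false_eq_true, if_false] at * <;> constructor <;> linarith
  · rw [pm_pm]; exact ⟨by linarith, by linarith⟩

theorem tail_asy {v : e.YC} {c : Cfg X.M κ ν} (h : K.Asy b v c) {η : ℝ} (h0 : 0 < η) (a : ℝ) :
    ∃ r, a ≤ r ∧ ∀ w : List (Option κ), w.length ≤ 5 → K.tl b v c (r - 4) w ≤ ENNReal.ofReal η := by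
  obtain ⟨T, h1, h2⟩ := h
  obtain ⟨n, k1, k2⟩ := (((eventually_all_finite (List.finite_length_le (Option κ) 5)).2 fun w _ =>
    (Cut71.tlz_tendsto (isOpen_Jv _ _).measurableSet h1 h2 w).eventually
      (ge_mem_nhds (ENNReal.ofReal_pos.2 h0))).and
    (tendsto_natCast_atTop_atTop.eventually_ge_atTop (a - T - 4))).exists
  exact ⟨T + n + 4, by linarith, fun w hw => by rw [add_sub_cancel_right]; exact k1 w hw⟩

end nk

section pc
variable {d : Dt κ lam ν} {N : Type} [Fintype N] {ty : N → d.𝓔} {P : Pc d X nc ty}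
  {q : d.W →₀ ℝ} {c : Cfg X.M κ ν} {i : N} {K : Nk (d.e (ty i)) P.bg} {I : Set ℝ}

theorem sml_of {k : ℕ} {η : ℝ} (h : P.Small k η q) (i : N) : Sml (fun w => d.yt w (ty i)) q k η :=
  h.imp fun _ h => ⟨h.1, fun w hw => ⟨(h.2 w hw).1, (h.2 w hw).2.2.2.2 i⟩⟩

theorem alm_nk (hP : P.OK) (hK : K ∈ P.nk i) {k : ℕ} {η : ℝ} (h : P.Small k η q) (h1 : η ≤ 1)
    (hI : I ⊆ K.deep 2) {O : Set X.M} (e : P.bg.EqOn (P.pt q) c O)
    (hO : ∀ x ∈ univ ×ˢ I, K.ψ x ∈ O) : Alm (K.pb c) I (1 + Fintype.card N) := fun x hx => by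
  have hs := K.mem_src.2 (Pb50.deep_J K two_pos (hI hx.2))
  obtain ⟨h2, h3⟩ := Pb50.pt_ψ hP.toOK 0 c hK (hI hx.2) (by simp)
  obtain ⟨h4, h5⟩ := e _ (hO x hx)
  rw [← Pb50.eD_ψ K hs, ← Pb50.eC_ψ K hs, h4, h5]
  refine ⟨h2, ?_⟩
  simp only [Pc.pt, pt, tau, Finsupp.sum_zero_index, add_zero] at h3 ⊢
  rw [h3, neg_smul, neg_add_cancel_comm]
  exact (Sw88.norm_terms P h c _).trans (mul_le_of_le_one_left (by positivity) h1)

theorem eq_nk (hP : P.OK) (hK : K ∈ P.nk i) (hI : I ⊆ K.deep 2) {O : Set X.M}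
    (e : P.bg.EqOn (P.pt q) c O) (hO : ∀ x ∈ univ ×ˢ I, K.ψ x ∈ O)
    (h0 : ∀ w ∈ q.support, ∀ x ∈ univ ×ˢ I, P.fo w (K.ψ x) = 0) :
    (d.e (ty i)).cyl.EqOn (pt (fun w => d.yt w (ty i)) q) (K.pb c) (univ ×ˢ I) := fun x hx => by
  have hs := K.mem_src.2 (Pb50.deep_J K two_pos (hI hx.2))
  obtain ⟨h1, h2⟩ := Pb50.pt_ψ hP.toOK q c hK (hI hx.2) fun w hw => h0 w hw x hx
  rw [← Pb50.eD_ψ K hs, ← Pb50.eC_ψ K hs, ← h1, ← h2]
  exact e _ (hO x hx)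

theorem en_nk (hK : K ∈ P.nk i) (c : Cfg X.M κ ν) : en (K.pb c) (K.deep 2) ≤ P.ean c := by
  refine le_trans ?_ le_add_self
  refine le_trans ?_ (Finset.single_le_sum (fun _ _ => zero_le) (Finset.mem_univ i))
  rw [Option.mem_def.1 hK, Option.elim_some]

theorem supp_cv {ι W : Type} {l : Filter ι} {q : ι → W →₀ ℝ} {q₀ : W →₀ ℝ} (h : St.Cv l q q₀)
    (r : W → ℝ) : ∃ R, ∀ i, ∀ w ∈ (q i).support, r w ≤ R := by
  classical
  obtain ⟨J, h, -⟩ := h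
  obtain ⟨R, hR⟩ := ((J ∪ q₀.support).finite_toSet.image r).bddAbove
  refine ⟨R, fun i w hw => hR ⟨w, ?_, rfl⟩⟩
  by_cases k : w ∈ J
  · simp [k]
  · simp [← h i w k, Finsupp.mem_support_iff.1 hw]

variable {T : Type} [NormedAddCommGroup T] [NormedSpace ℝ T] [FiniteDimensional ℝ T]
  {s : Pz X 0 fun i => d.e (ty i)} {𝓕 : Fam s nc T}

theorem mem_reg (h : 𝓕.OK) {t : T} (ht : t ∈ 𝓕.Q) {K : Nk (d.e (ty i)) (𝓕.P t).bg}
    (hK : K ∈ (𝓕.P t).nk i) {ρ : N → Bool → Option ℝ} {x : (d.e (ty i)).Y.M × ℝ} (hx : x.2 ∈ K.J)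
    (hρ : ∀ b, K.Inf b → ∀ r ∈ ρ i b, pm b * x.2 ≤ r) : K.ψ x ∈ s.reg ρ := by
  rintro j b K₀ h0 hb r hr ⟨z, hz, e⟩
  obtain ⟨K', h1, h2⟩ := h.en t ht j K₀ h0
  rw [← ng_ψ h2] at e
  rw [← ng_far h2] at hz
  have s1 := K'.mem_src.2 hz.2.1
  have s2 := K.mem_src.2 hx
  by_cases hj : j = i
  · subst hj
    obtain rfl := Option.mem_unique hK h1
    obtain rfl := K.ψ.injOn s1 s2 e
    exact (hρ b ((ng_inf h2).2 hb) r hr).not_gt hz.2.2
  · exact disjoint_left.1 ((h.ok t ht).dj hj K' h1 K hK) (K'.ψ.map_source s1)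
      (e ▸ K.ψ.map_source s2)

end pc

variable {d : Dt κ lam ν} [Fintype d.𝓔] {Sl : Type} [Fintype Sl]
  {T : Type} [NormedAddCommGroup T] [NormedSpace ℝ T] [FiniteDimensional ℝ T]
  {s : StS d Sl X} {σ : Cel s nc nr T}

variable (σ) in
/-- the exact part of a partial solution -/
def Ex (q : d.W →₀ ℝ) (y : σ.Pnt) (ρ : d.𝓔 × Sl → Bool → Option ℝ) : Prop :=
  (σ.P y.1.1).bg.EqOn ((σ.P y.1.1).pt q) y.1.2 (s.reg ρ) ∧
    (∀ j, (σ.P y.1.1).bg.l j y.1.2 = ((σ.P y.1.1).pt q).S y.1.2 j) ∧ σ.R y.1.1 y.1.2 = 0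

variable (σ) in
/-- a window of level `n` -/
structure Ky (q : d.W →₀ ℝ) (y : σ.Pnt) (ρ : d.𝓔 × Sl → Bool → Option ℝ) (j : d.𝓔 × Sl) (n : ℕ)
    (v : (d.e j.1).YC) (τ : ℝ) (y' : σ.Pnt) : Prop where
  eqv : σ.Eqv y y'
  eq : Ex σ q y' ρ
  tl : ∀ j' b, ∀ K ∈ s.nk j', K.Inf b → ∀ r ∈ ρ j' b, ∀ R ≤ (n : ℝ), ∀ v w,
    K.tl b v y'.1.2 (r - R) w = K.tl b v y.1.2 (r - R) w
  win : ∃ K ∈ (σ.P y'.1.1).nk j, Icc (τ - n) (τ + n) ⊆ K.J ∧
    (∀ b, K.Inf b → ∀ r' ∈ ρ j b, pm b * τ + n ≤ r') ∧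
    Cl (K.pb y'.1.2) (fz v) (Ioo (τ - n) (τ + n)) n (1 / (n + 1))

theorem ky (hE : ExtStmt κ lam ν) (h : σ.OK) {q : d.W →₀ ℝ} {y : σ.Pnt}
    {ρ : d.𝓔 × Sl → Bool → Option ℝ} (e : Ex σ q y ρ) {j : d.𝓔 × Sl}
    {K : Nk (d.e j.1) (σ.P y.1.1).bg} (hK : K ∈ (σ.P y.1.1).nk j) {n : ℕ} {τ B γ : ℝ}
    (h1 : Icc (τ - n - 1) (τ + n + 1) ⊆ K.J)
    (h2 : ∀ b, K.Inf b → ∀ r ∈ ρ j b, pm b * τ + 2 * n + 1 ≤ r) {g : (d.e j.1).Gen}
    {V : Set (d.e j.1).YC} {v : (d.e j.1).YC} (hv : Gc g V (K.pb y.1.2) τ n B γ v) :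
    ∃ y', Ky σ q y ρ j n v τ y' := by
  obtain ⟨χ, c1, c2, c3⟩ := hv.χ
  obtain ⟨c', a1, a2, a3, a4, a5, a6, a7⟩ := hE d Sl X nc nr T s σ h y j K hK χ _ _ c1 h1 c2
  have n0 : (0 : ℝ) ≤ n := n.cast_nonneg
  refine ⟨⟨(y.1.1, c'), y.2.1, a1⟩, ⟨rfl, a2⟩, ⟨a5 q _ e.1, a6 q e.2.1, a3.trans e.2.2⟩,
    fun j' b K' h3 h4 r hr R hR => a7 j' b _ K' h3 ?_, K, hK,
    (Icc_subset_Icc (by linarith) (by linarith)).trans h1,
    fun b hb r hr => by linarith [h2 b hb r hr], a4 _ _ _ _ isOpen_Ioo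
      (fun t ht => h1 ⟨by linarith [ht.1], by linarith [ht.2]⟩) c3⟩
  rintro rfl
  obtain ⟨K'', h5, h6⟩ := h.en _ y.2.1 j' K' h3
  obtain rfl := Option.mem_unique hK h5
  refine disjoint_left.2 fun t ht ht' => ?_
  have := (pm_near b (s := τ) (d := n + 1) (t := t) (by linarith [ht.1]) (by linarith [ht.2])).2
  linarith [h2 b ((ng_inf h6).2 h4) r hr, mem_ofPred.1 ht'.2]

/-- the diagonal sequence -/
theorem fin {ι : Type} {𝒰 : Ultrafilter ι} {q : ι → d.W →₀ ℝ} {y : ι → σ.Pnt}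
    {ρ : ι → d.𝓔 × Sl → Bool → Option ℝ} (hP : σ.PS 𝒰 q y ρ) {m : ι → ℝ} (hm : Tendsto m 𝒰 atTop)
    {j : d.𝓔 × Sl} {V : Set (d.e j.1).YC} (hV : Rs V) {C : ℝ} {Pv : (d.e j.1).YC → Prop}
    {f : ℝ → ℝ} {A : Prop} (h : ∀ n : ℕ, ∀ᶠ i in (𝒰 : Filter ι), ∃ v ∈ V, |hol v| ≤ C ∧ Pv v ∧
      ∃ τ, (A → n ≤ f τ) ∧ ∃ y', Ky σ (q i) (y i) (ρ i) j n v τ y') :
    ∃ v ∈ V, ∃ y' τ, |hol v| ≤ C ∧ (∀ᶠ i in (𝒰 : Filter ι), σ.Eqv (y i) (y' i)) ∧
      σ.PS 𝒰 q y' ρ ∧ σ.Win 𝒰 y' ρ j v τ ∧ Pv v ∧ (A → Tendsto (fun i => f (τ i)) 𝒰 atTop) := by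
  obtain ⟨n, n1, n2⟩ := diag hm h
  obtain ⟨v, hv, h1⟩ := (Ultrafilter.eventually_exists_mem_iff (hV.fin C) (f := 𝒰)
    (P := fun v i => Pv v ∧ ∃ z : ℝ × σ.Pnt, (A → n i ≤ f z.1) ∧
      Ky σ (q i) (y i) (ρ i) j (n i) v z.1 z.2)).1
    (n2.mono fun i ⟨v, a, b, c, τ, e, y', k⟩ => ⟨v, ⟨a, b⟩, c, (τ, y'), e, k⟩)
  obtain ⟨z, hz⟩ := (h1.mono fun _ h => h.2).choice
  have n3 := tendsto_natCast_atTop_atTop (R := ℝ).comp n1
  refine ⟨v, hv.1, fun i => (z i).2, fun i => (z i).1, hv.2, hz.mono fun _ h => h.2.eqv,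
    ⟨hP.far, hz.mono fun _ h => h.2.eq, ?_⟩, ⟨fun k r η h0 => ?_⟩, h1.exists.choose_spec.1,
    fun a => tendsto_atTop_mono' _ (hz.mono fun _ h => h.1 a) n3⟩
  · intro R w η h0
    filter_upwards [hP.tl R w η h0, hz, n3.eventually_ge_atTop R] with i a b c j' b' K h2 h3 r hr
    exact (b.2.tl j' b' K h2 h3 r hr _ c _ w).trans_le (a j' b' K h2 h3 r hr)
  · filter_upwards [hz, n3.eventually_ge_atTop r, n1.eventually_ge_atTop k,
      (tendsto_one_div_add_atTop_nhds_zero_nat.comp n1).eventually (ge_mem_nhds h0)] with i a b c e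
    obtain ⟨K, k1, k2, k3, k4⟩ := a.2.win
    have b : r ≤ n i := b
    exact ⟨K, k1, (Icc_subset_Icc (by linarith) (by linarith)).trans k2,
      fun b' hb r' hr => by linarith [k3 b' hb r' hr],
      Cut71.cl_mono k4 (Ioo_subset_Ioo (by linarith) (by linarith)) c e⟩

end Crest.Agent.X212.Brk46
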