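import Crest.Agent.X212.Brk46.Fre
import Crest.Agent.X212.Brk46.Ext
import Crest.Agent.X212.Brk46.Gw

/-!
# Row 212, SW-BRK (helper46): `BrkStmt` from the field `conv`
-/

set_option autoImplicit false
set_option linter.unusedSectionVars false
noncomputable section
open scoped Topology
open Set Filter

namespace Crest.Agent.X212.Brk46
open An Sw Sw.En3
open M (Mf)

variable {κ lam ν : Type} [Fintype κ] [Fintype lam] [Fintype ν] [DecidableEq ν]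

/-- the field `conv` of `Sw.Brk` -/
def Conv (d : Dt κ lam ν) [Fintype d.𝓔] (Sl : Type) [Fintype Sl] (X : Mf 4) (nc nr : ℕ) (T : Type)
    [NormedAddCommGroup T] [NormedSpace ℝ T] [FiniteDimensional ℝ T] (C η₀ η : ℝ) : Prop :=
  ∀ (s : StS d Sl X) (σ : Cel s nc nr T), σ.OK → ∀ (ι : Type) (𝒰 : Ultrafilter ι) q y ρ q₀ t₀,
    σ.PS 𝒰 q y ρ → St.Cv (𝒰 : Filter ι) q q₀ → (∀ᶠ i in (𝒰 : Filter ι), σ.Sm η (q i) ∧ σ.Bnd C η₀ (y i)) →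
    t₀ ∈ σ.Q → Tendsto (fun i => (y i).1.1) 𝒰 (𝓝 t₀) →
    (∀ j b, s.Inf j b → ∃ r, ∀ᶠ i in (𝒰 : Filter ι), s.mo σ.β j b (y i).1.2 ≤ r) →
    ∃ y₀ : σ.Pnt, (σ.P y₀.1.1).bg.Sol ((σ.P y₀.1.1).pt q₀) y₀.1.2 ∧ σ.R y₀.1.1 y₀.1.2 = 0 ∧
      σ.Cvg 𝒰 y y₀

variable (κ lam ν) in
/-- SW-CONV -/
def ConvStmt : Prop := ∀ (d : Dt κ lam ν) [Fintype d.𝓔] (Sl : Type) [Fintype Sl] (_ : Ctx d)
  (C η₀ : ℝ), 0 < η₀ → ∃ η > 0, ∀ (X : Mf 4) (nc nr : ℕ) (T : Type) [NormedAddCommGroup T]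
    [NormedSpace ℝ T] [FiniteDimensional ℝ T], Conv d Sl X nc nr T C η₀ η

/-- **SW-BRK** -/
theorem brk (hL : DlStmt κ lam ν) (hR : DriftStmt κ lam ν) (hW : WinStmt κ lam ν)
    (hD : DecStmt κ lam ν) (hC : ConvStmt κ lam ν) : BrkStmt κ lam ν := by
  intro d _ Sl _ Γ C η₀ h0
  obtain ⟨η₁, e1, h1⟩ := hC d Sl Γ C η₀ h0
  obtain ⟨η₂, e2, h2⟩ := fre (Sl := Sl) hL hR (Sep15.S.mono hW hL) (gwStmt hW hD) ext Γ C h0
  refine ⟨min η₁ (min η₂ 1), by positivity, fun X nc nr T _ _ _ =>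
    ⟨fun s σ h ι 𝒰 q y ρ q₀ t₀ a b c => h1 X nc nr T s σ h ι 𝒰 q y ρ q₀ t₀ a b
      (c.mono fun _ k => ⟨fun t ht => (k.1 t ht).imp fun _ k => ⟨k.1.trans (min_le_left _ _), k.2⟩,
        k.2⟩), h2 _ ((min_le_right _ _).trans (min_le_left _ _)) X nc nr T,
      nec hR (gwStmt hW hD) ext Γ C h0 ((min_le_right _ _).trans (min_le_right _ _))⟩⟩

end Crest.Agent.X212.Brk46
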